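import Mathlib.Analysis.Distribution.SchwartzSpace.Basic
import Mathlib.Analysis.Calculus.MeanValue

/-!
# P352X, Schwartz toolbox: bounded and pointwise convergent families converge in Schwartz space
-/

set_option linter.all false

noncomputable section

open Filter Topology Metric
open scoped SchwartzMap ContDiff

namespace Vale.Agent.P352X.ST

variable {E F : Type*} [NormedAddCommGroup E] [NormedSpace ℝ E] [NormedAddCommGroup F]
  [NormedSpace ℝ F]

lemma diff_iter {g : E → F} (hg : ContDiff ℝ ∞ g) (n : ℕ) :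
    Differentiable ℝ (iteratedFDeriv ℝ n g) :=
  hg.differentiable_iteratedFDeriv (by exact_mod_cast ENat.coe_lt_top n)

/-- Lipschitz bound for iterated derivatives. -/
lemma lip_iter {g : E → F} (hg : ContDiff ℝ ∞ g) (n : ℕ) {B : ℝ}
    (hB : ∀ z, ‖iteratedFDeriv ℝ (n + 1) g z‖ ≤ B) (y z : E) :
    ‖iteratedFDeriv ℝ n g y - iteratedFDeriv ℝ n g z‖ ≤ B * ‖y - z‖ :=
  convex_univ.norm_image_sub_le_of_norm_fderiv_le (fun x _ => diff_iter hg n x)
    (fun x _ => by rw [norm_fderiv_iteratedFDeriv]; exact hB x) (Set.mem_univ z) (Set.mem_univ y)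

/-- Interpolation inequality of Landau-Kolmogorov type. -/
lemma interp {g : E → F} (hg : ContDiff ℝ ∞ g) (n : ℕ) {A B t : ℝ} (ht : 0 < t)
    (hA : ∀ z, ‖iteratedFDeriv ℝ n g z‖ ≤ A) (hB : ∀ z, ‖iteratedFDeriv ℝ (n + 2) g z‖ ≤ B)
    (z : E) : ‖iteratedFDeriv ℝ (n + 1) g z‖ ≤ 2 * A / t + B * t := by
  have hA0 : 0 ≤ A := (norm_nonneg _).trans (hA z)
  have hB0 : 0 ≤ B := (norm_nonneg _).trans (hB z)
  rw [← norm_fderiv_iteratedFDeriv]
  set G := iteratedFDeriv ℝ n g with hG
  refine ContinuousLinearMap.opNorm_le_of_unit_norm (by positivity) fun v hv => ?_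
  have h1 : ∀ x ∈ closedBall z t, ‖fderiv ℝ G x - fderiv ℝ G z‖ ≤ B * t := by
    intro x hx
    rw [hG, fderiv_iteratedFDeriv, Function.comp_apply, Function.comp_apply,
      ← LinearIsometryEquiv.map_sub, LinearIsometryEquiv.norm_map]
    refine (lip_iter hg (n + 1) hB x z).trans ?_
    rw [mem_closedBall, dist_eq_norm] at hx
    exact mul_le_mul_of_nonneg_left hx hB0
  have hmem : z + t • v ∈ closedBall z t := by
    rw [mem_closedBall, dist_eq_norm, add_sub_cancel_left, norm_smul, hv, mul_one,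
      Real.norm_eq_abs, abs_of_pos ht]
  have h2 := (convex_closedBall z t).norm_image_sub_le_of_norm_fderiv_le'
    (fun x _ => diff_iter hg n x) h1 (mem_closedBall_self ht.le) hmem
  rw [add_sub_cancel_left, map_smul, norm_smul, hv, mul_one, Real.norm_eq_abs, abs_of_pos ht] at h2
  have h3 : ‖t • fderiv ℝ G z v‖ ≤ 2 * A + B * t * t := by
    have e : t • fderiv ℝ G z v =
        (G (z + t • v) - G z) - (G (z + t • v) - G z - t • fderiv ℝ G z v) := by abel
    rw [e]
    refine (norm_sub_le _ _).trans ?_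
    have := norm_sub_le (G (z + t • v)) (G z)
    have a1 := hA (z + t • v)
    have a2 := hA z
    linarith
  rw [norm_smul, Real.norm_eq_abs, abs_of_pos ht] at h3
  rw [div_add' _ _ _ ht.ne', le_div_iff₀ ht]
  linarith

variable {𝕜 : Type*} [NormedField 𝕜] [NormedSpace 𝕜 F] [SMulCommClass ℝ 𝕜 F]

/-- The case of the limit zero. -/
theorem tendsto_zero_of_bdd [ProperSpace E] {ι : Type*} {l : Filter ι} {g : ι → 𝓢(E, F)}
    (hb : ∀ k n, ∃ C, ∀ᶠ i in l, SchwartzMap.seminorm 𝕜 k n (g i) ≤ C)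
    (hp : ∀ z, Tendsto (fun i => g i z) l (𝓝 0)) : Tendsto g l (𝓝 0) := by
  have hsm : ∀ i, ContDiff ℝ ∞ (g i) := fun i => (g i).smooth ⊤
  -- positive bounds
  have hb' : ∀ k n, ∃ C, 0 < C ∧ ∀ᶠ i in l, ∀ z, ‖z‖ ^ k * ‖iteratedFDeriv ℝ n (g i) z‖ ≤ C := by
    intro k n
    obtain ⟨C, hC⟩ := hb k n
    refine ⟨max C 1, by positivity, hC.mono fun i hi z => ?_⟩
    exact ((g i).le_seminorm 𝕜 k n z).trans (hi.trans (le_max_left _ _))
  -- uniform convergence of all derivatives
  have hu : ∀ n, ∀ ε > 0, ∀ᶠ i in l, ∀ z, ‖iteratedFDeriv ℝ n (g i) z‖ ≤ ε := by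
    intro n
    induction n with
    | zero =>
      intro ε hε
      obtain ⟨C, hC0, hC⟩ := hb' 1 0
      obtain ⟨L, hL0, hL⟩ := hb' 0 1
      have hK : IsCompact (closedBall (0 : E) (C / ε)) := isCompact_closedBall _ _
      obtain ⟨s, hs, hcov⟩ := hK.elim_nhds_subcover (fun x => ball x (ε / (2 * L)))
        (fun x _ => ball_mem_nhds x (by positivity))
      have hfin : ∀ᶠ i in l, ∀ x ∈ s, ‖g i x‖ ≤ ε / 2 := by
        rw [eventually_all_finset]
        intro x _
        have := (hp x).norm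
        rw [norm_zero] at this
        exact this.eventually (ge_mem_nhds (by positivity))
      filter_upwards [hC, hL, hfin] with i hCi hLi hfi z
      by_cases hz : z ∈ closedBall (0 : E) (C / ε)
      · obtain ⟨x, hx, hzx⟩ := Set.mem_iUnion₂.1 (hcov hz)
        have h1 := lip_iter (hsm i) 0 (B := L) (fun y => by simpa using hLi y) z x
        rw [mem_ball, dist_eq_norm] at hzx
        have h2 : L * ‖z - x‖ ≤ ε / 2 := by
          calc L * ‖z - x‖ ≤ L * (ε / (2 * L)) := mul_le_mul_of_nonneg_left hzx.le hL0.le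
            _ = ε / 2 := by field_simp
        have h3 : ‖iteratedFDeriv ℝ 0 (g i) x‖ ≤ ε / 2 := by
          rw [norm_iteratedFDeriv_zero]; exact hfi x hx
        have h4 := norm_le_norm_add_norm_sub' (iteratedFDeriv ℝ 0 (g i) z)
          (iteratedFDeriv ℝ 0 (g i) x)
        linarith
      · rw [mem_closedBall, dist_zero_right, not_le] at hz
        have h1 := hCi z
        rw [pow_one] at h1
        have hz0 : 0 < ‖z‖ := lt_trans (by positivity) hz
        rw [div_lt_iff₀ hε] at hz
        by_contra hcon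
        push Not at hcon
        have := mul_lt_mul_of_pos_left hcon hz0
        linarith
    | succ n ih =>
      intro ε hε
      obtain ⟨B, hB0, hB⟩ := hb' 0 (n + 2)
      have ht : 0 < ε / (2 * B) := by positivity
      filter_upwards [hB, ih (ε * (ε / (2 * B)) / 4) (by positivity)] with i hBi hi z
      refine (interp (hsm i) n ht hi (fun y => by simpa using hBi y) z).trans (le_of_eq ?_)
      field_simp
      ring
  rw [(schwartz_withSeminorms 𝕜 E F).tendsto_nhds g 0]
  rintro ⟨k, n⟩ ε hε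
  obtain ⟨C, hC0, hC⟩ := hb' (k + 1) n
  set R := 2 * C / ε with hR
  have hR0 : 0 < R := by positivity
  filter_upwards [hC, hu n (ε / (2 * R ^ k)) (by positivity)] with i hCi hi
  rw [sub_zero, SchwartzMap.schwartzSeminormFamily_apply]
  refine lt_of_le_of_lt (SchwartzMap.seminorm_le_bound 𝕜 k n _ (M := ε / 2) (by positivity)
    fun z => ?_) (by linarith)
  by_cases hz : ‖z‖ ≤ R
  · calc ‖z‖ ^ k * ‖iteratedFDeriv ℝ n (g i) z‖ ≤ R ^ k * (ε / (2 * R ^ k)) := by
          gcongr
          exact hi z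
      _ = ε / 2 := by field_simp
  · push Not at hz
    have h1 := hCi z
    have hz0 : 0 < ‖z‖ := hR0.trans hz
    by_contra hcon
    push Not at hcon
    have h2 := mul_lt_mul_of_pos_left hcon hz0
    rw [← mul_assoc, ← pow_succ'] at h2
    have h3 : C < ‖z‖ * (ε / 2) := by
      rw [hR, div_lt_iff₀ hε] at hz
      linarith
    linarith

/-- **Montel property of Schwartz space**: a family that is bounded in all seminorms and converges
pointwise converges in Schwartz space. -/
theorem tendsto_of_bdd [ProperSpace E] {ι : Type*} {l : Filter ι} {g : ι → 𝓢(E, F)} {g₀ : 𝓢(E, F)}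
    (hb : ∀ k n, ∃ C, ∀ᶠ i in l, SchwartzMap.seminorm 𝕜 k n (g i) ≤ C)
    (hp : ∀ z, Tendsto (fun i => g i z) l (𝓝 (g₀ z))) : Tendsto g l (𝓝 g₀) := by
  have h := tendsto_zero_of_bdd (𝕜 := 𝕜) (l := l) (g := fun i => g i - g₀) (fun k n => ?_)
    (fun z => ?_)
  · simpa using h.add_const g₀
  · obtain ⟨C, hC⟩ := hb k n
    refine ⟨C + SchwartzMap.seminorm 𝕜 k n g₀, hC.mono fun i hi => ?_⟩
    exact (map_sub_le_add _ _ _).trans (by linarith)
  · have := (hp z).sub_const (g₀ z)
    simpa using this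

/-- Continuity criterion for maps into Schwartz space. -/
theorem continuous_of_bdd [ProperSpace E] {X : Type*} [TopologicalSpace X] {g : X → 𝓢(E, F)}
    (hb : ∀ k n x, ∃ C, ∀ᶠ y in 𝓝 x, SchwartzMap.seminorm 𝕜 k n (g y) ≤ C)
    (hp : ∀ z, Continuous fun x => g x z) : Continuous g :=
  continuous_iff_continuousAt.2 fun x =>
    tendsto_of_bdd (𝕜 := 𝕜) (fun k n => hb k n x) fun z => (hp z).continuousAt

/-- Continuity criterion with a continuous bound. -/
theorem continuous_of_bound [ProperSpace E] {X : Type*} [TopologicalSpace X] {g : X → 𝓢(E, F)}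
    (hb : ∀ k n, ∃ b : X → ℝ, Continuous b ∧ ∀ y, SchwartzMap.seminorm 𝕜 k n (g y) ≤ b y)
    (hp : ∀ z, Continuous fun x => g x z) : Continuous g := by
  refine continuous_of_bdd (𝕜 := 𝕜) (fun k n x => ?_) hp
  obtain ⟨b, hbc, hb⟩ := hb k n
  refine ⟨b x + 1, ?_⟩
  filter_upwards [hbc.continuousAt.eventually (gt_mem_nhds (lt_add_one (b x)))] with y hy
  exact (hb y).trans hy.le

instance : (uniformity 𝓢(E, F)).IsCountablyGenerated :=
  IsUniformAddGroup.uniformity_countably_generated

instance pseudoMetrizable : TopologicalSpace.PseudoMetrizableSpace 𝓢(E, F) :=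
  UniformSpace.pseudoMetrizableSpace

end Vale.Agent.P352X.ST
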