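import Vale.Agent.P352X.ST.Ops
import Mathlib.Analysis.Distribution.SchwartzSpace.Fourier
import Mathlib.Analysis.Calculus.BumpFunction.Normed

/-!
# P352X, Schwartz toolbox: Fourier synthesis, convolutions, approximation
-/

set_option linter.all false

noncomputable section

open Filter Topology Metric MeasureTheory
open scoped SchwartzMap ContDiff FourierTransform RealInnerProductSpace

namespace Vale.Agent.P352X.ST

variable {E : Type*} [NormedAddCommGroup E] [NormedSpace ℝ E]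

/-- Translations `g ↦ g (· - a)`. -/
abbrev tsl (a : E) : 𝓢(E, ℂ) →L[ℂ] 𝓢(E, ℂ) := SchwartzMap.compSubConstCLM ℂ a

lemma tsl_apply (a : E) (g : 𝓢(E, ℂ)) (z : E) : tsl a g z = g (z - a) := rfl

lemma continuous_pw : Continuous fun q : (E →L[ℝ] ℝ) × E => pw q.1 q.2 := by
  unfold pw
  have : Continuous fun q : (E →L[ℝ] ℝ) × E => q.1 q.2 := isBoundedBilinearMap_apply.continuous
  fun_prop

variable [FiniteDimensional ℝ E]

/-- Joint continuity of families of operators with locally uniform bounds. -/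
lemma continuous_joint {X E' : Type*} [TopologicalSpace X] [NormedAddCommGroup E']
    [NormedSpace ℝ E'] (T : X → 𝓢(E', ℂ) →L[ℂ] 𝓢(E, ℂ))
    (hb : ∀ N, ∃ (b : X → ℝ) (N' : ℕ), Continuous b ∧ ∀ x g, sn E ℂ N (T x g) ≤ b x * sn E' ℂ N' g)
    (hp : ∀ z, Continuous fun q : X × 𝓢(E', ℂ) => T q.1 q.2 z) :
    Continuous fun q : X × 𝓢(E', ℂ) => T q.1 q.2 := by
  haveI := FiniteDimensional.proper ℝ E
  refine continuous_of_sn (fun N => ?_) hp
  obtain ⟨b, N', hb, h⟩ := hb N
  exact ⟨fun q => b q.1 * sn E' ℂ N' q.2,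
    (hb.comp continuous_fst).mul ((continuous_sn N').comp continuous_snd), fun q => h q.1 q.2⟩

omit [FiniteDimensional ℝ E] in
lemma continuous_eval : Continuous fun q : 𝓢(E, ℂ) × E => q.1 q.2 :=
  (ContinuousEval.continuous_eval (F := BoundedContinuousFunction E ℂ)).comp
    (((SchwartzMap.toBoundedContinuousFunctionCLM ℂ E ℂ).continuous.comp continuous_fst).prodMk
      continuous_snd)

lemma continuous_tsl : Continuous fun q : E × 𝓢(E, ℂ) => tsl q.1 q.2 :=
  continuous_joint tsl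
    (fun N => ⟨fun a => 2 ^ N * (1 + ‖a‖) ^ N, N, by fun_prop, fun a g => sn_tsl g a N⟩)
    fun z => continuous_eval.comp (continuous_snd.prodMk (continuous_const.sub continuous_fst))

lemma continuous_mdl : Continuous fun q : (E →L[ℝ] ℝ) × 𝓢(E, ℂ) => mdl q.1 q.2 :=
  continuous_joint mdl
    (fun N => ⟨fun a => 4 ^ N * (1 + ‖a‖) ^ N, N, by fun_prop, fun a g => sn_mdl a g N⟩)
    fun z => by
      simp only [mdl_apply]
      exact (continuous_pw.comp (continuous_fst.prodMk continuous_const)).mul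
        (continuous_eval.comp (continuous_snd.prodMk continuous_const))

section families

variable {X : Type*} [MeasurableSpace X] {μ : Measure X}

omit [FiniteDimensional ℝ E] in
lemma SInt.of_smul {m : X → ℂ} {Φ : X → 𝓢(E, ℂ)} (hm : AEStronglyMeasurable m μ)
    (hΦ : AEStronglyMeasurable Φ μ)
    (hb : ∀ N, ∃ b : X → ℝ, Integrable (fun x => ‖m x‖ * b x) μ ∧ ∀ᵐ x ∂μ, sn E ℂ N (Φ x) ≤ b x) :
    SInt (fun x => m x • Φ x) μ := by
  refine SInt.of_sn (hm.smul hΦ) fun N => ?_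
  obtain ⟨b, hb, h⟩ := hb N
  exact ⟨_, hb, h.mono fun x hx =>
    (sn_smul _ _ N).trans (mul_le_mul_of_nonneg_left hx (norm_nonneg _))⟩

/-- Superpositions of modulated functions. -/
lemma sint_mdl {m : X → ℂ} {l : X → E →L[ℝ] ℝ} (hm : AEStronglyMeasurable m μ)
    (hl : AEStronglyMeasurable l μ) (hi : ∀ N, Integrable (fun x => ‖m x‖ * (1 + ‖l x‖) ^ N) μ)
    (G : 𝓢(E, ℂ)) : SInt (fun x => m x • mdl (l x) G) μ := by
  refine SInt.of_smul hm
    ((continuous_mdl.comp (continuous_id.prodMk continuous_const)).comp_aestronglyMeasurable hl)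
    fun N => ⟨fun x => 4 ^ N * (1 + ‖l x‖) ^ N * sn E ℂ N G, ?_,
      Eventually.of_forall fun x => sn_mdl _ _ N⟩
  refine ((hi N).const_mul (4 ^ N * sn E ℂ N G)).congr (Eventually.of_forall fun x => ?_)
  ring

/-- Superpositions of translates. -/
lemma sint_tsl {m : X → ℂ} {a : X → E} (hm : AEStronglyMeasurable m μ)
    (ha : AEStronglyMeasurable a μ) (hi : ∀ N, Integrable (fun x => ‖m x‖ * (1 + ‖a x‖) ^ N) μ)
    (G : 𝓢(E, ℂ)) : SInt (fun x => m x • tsl (a x) G) μ := by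
  refine SInt.of_smul hm
    ((continuous_tsl.comp (continuous_id.prodMk continuous_const)).comp_aestronglyMeasurable ha)
    fun N => ⟨fun x => 2 ^ N * (1 + ‖a x‖) ^ N * sn E ℂ N G, ?_,
      Eventually.of_forall fun x => sn_tsl _ _ N⟩
  refine ((hi N).const_mul (2 ^ N * sn E ℂ N G)).congr (Eventually.of_forall fun x => ?_)
  ring

variable {G : Type*} [NormedAddCommGroup G] [NormedSpace ℂ G] [CompleteSpace G]

/-- **Fourier synthesis**, general form. -/
theorem syn_gen {m : X → ℂ} {l : X → E →L[ℝ] ℝ} (hm : AEStronglyMeasurable m μ)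
    (hl : AEStronglyMeasurable l μ) (hi : ∀ N, Integrable (fun x => ‖m x‖ * (1 + ‖l x‖) ^ N) μ)
    (g h : 𝓢(E, ℂ)) (e : ∀ z, h z = (∫ x, m x * pw (l x) z ∂μ) * g z) (Λ : 𝓢(E, ℂ) →L[ℂ] G) :
    Integrable (fun x => m x • Λ (mdl (l x) g)) μ ∧ Λ h = ∫ x, m x • Λ (mdl (l x) g) ∂μ := by
  have := (sint_mdl hm hl hi g).clm (g := h) (fun z => ?_) Λ
  · simpa only [map_smul] using this
  · rw [e, ← integral_mul_const]
    refine integral_congr_ae (Eventually.of_forall fun x => ?_)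
    simp only [SchwartzMap.smul_apply, mdl_apply, smul_eq_mul, mul_assoc]

/-- **Convolution**, general form. -/
theorem conv_gen {m : X → ℂ} {a : X → E} (hm : AEStronglyMeasurable m μ)
    (ha : AEStronglyMeasurable a μ) (hi : ∀ N, Integrable (fun x => ‖m x‖ * (1 + ‖a x‖) ^ N) μ)
    (g h : 𝓢(E, ℂ)) (e : ∀ z, h z = ∫ x, m x * g (z - a x) ∂μ) (Λ : 𝓢(E, ℂ) →L[ℂ] G) :
    Integrable (fun x => m x • Λ (tsl (a x) g)) μ ∧ Λ h = ∫ x, m x • Λ (tsl (a x) g) ∂μ := by
  have := (sint_tsl hm ha hi g).clm (g := h) (fun z => ?_) Λ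
  · simpa only [map_smul] using this
  · rw [e]; rfl

end families

omit [FiniteDimensional ℝ E] in
lemma integrable_one_add_pow {W : Type*} [NormedAddCommGroup W] [NormedSpace ℝ W]
    [MeasurableSpace W] [BorelSpace W] [SecondCountableTopology W] {μ : Measure W}
    [μ.HasTemperateGrowth] (f : 𝓢(W, ℂ)) (c : ℝ) (N : ℕ) :
    Integrable (fun x => ‖f x‖ * (1 + c * ‖x‖) ^ N) μ := by
  simp only [add_comm (1 : ℝ), add_pow, one_pow, mul_one, Finset.mul_sum]
  refine integrable_finset_sum _ fun i _ => ?_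
  refine ((f.integrable_pow_mul μ i).const_mul (c ^ i * N.choose i)).congr
    (Eventually.of_forall fun x => ?_)
  ring

section fourier

variable {W : Type*} [NormedAddCommGroup W] [InnerProductSpace ℝ W] [FiniteDimensional ℝ W]
  [MeasurableSpace W] [BorelSpace W]

/-- The linear functional `z ↦ 2 π ⟨ξ, lam z⟩`. -/
def frq (lam : E →L[ℝ] W) (ξ : W) : E →L[ℝ] ℝ := (2 * Real.pi) • (innerSL ℝ ξ ∘L lam)

omit [FiniteDimensional ℝ E] [FiniteDimensional ℝ W] [MeasurableSpace W] [BorelSpace W] in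
lemma frq_apply (lam : E →L[ℝ] W) (ξ : W) (z : E) : frq lam ξ z = 2 * Real.pi * ⟪ξ, lam z⟫ := rfl

omit [FiniteDimensional ℝ E] [FiniteDimensional ℝ W] [MeasurableSpace W] [BorelSpace W] in
lemma norm_frq_le (lam : E →L[ℝ] W) (ξ : W) : ‖frq lam ξ‖ ≤ 2 * Real.pi * ‖lam‖ * ‖ξ‖ := by
  have := Real.pi_pos
  refine ContinuousLinearMap.opNorm_le_bound _ (by positivity) fun z => ?_
  rw [frq_apply, norm_mul, Real.norm_of_nonneg (by positivity)]
  have h1 := (norm_inner_le_norm (𝕜 := ℝ) ξ (lam z)).trans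
    (mul_le_mul_of_nonneg_left (lam.le_opNorm z) (norm_nonneg ξ))
  calc 2 * Real.pi * ‖⟪ξ, lam z⟫‖ ≤ 2 * Real.pi * (‖ξ‖ * (‖lam‖ * ‖z‖)) := by gcongr
    _ = _ := by ring

omit [FiniteDimensional ℝ E] [FiniteDimensional ℝ W] [MeasurableSpace W] [BorelSpace W] in
lemma continuous_frq (lam : E →L[ℝ] W) : Continuous (frq lam) :=
  ((innerSL ℝ (E := W)).continuous.clm_comp continuous_const).const_smul (2 * Real.pi)

variable {G : Type*} [NormedAddCommGroup G] [NormedSpace ℂ G] [CompleteSpace G]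

/-- **Fourier synthesis**: `Λ (ρ (lam ·) g) = ∫ 𝓕 ρ ξ • Λ (e^{2 π i ⟨ξ, lam ·⟩} g) dξ`. -/
theorem syn (ρ : 𝓢(W, ℂ)) (lam : E →L[ℝ] W) (g h : 𝓢(E, ℂ)) (e : ∀ z, h z = ρ (lam z) * g z)
    (Λ : 𝓢(E, ℂ) →L[ℂ] G) :
    Integrable (fun ξ => (𝓕 ρ : 𝓢(W, ℂ)) ξ • Λ (mdl (frq lam ξ) g)) ∧
      Λ h = ∫ ξ, (𝓕 ρ : 𝓢(W, ℂ)) ξ • Λ (mdl (frq lam ξ) g) := by
  refine syn_gen (𝓕 ρ : 𝓢(W, ℂ)).continuous.aestronglyMeasurable
    (continuous_frq lam).aestronglyMeasurable (fun N => ?_) g h (fun z => ?_) Λ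
  · refine (integrable_one_add_pow (𝓕 ρ : 𝓢(W, ℂ)) (2 * Real.pi * ‖lam‖) N).mono'
      ((𝓕 ρ : 𝓢(W, ℂ)).continuous.norm.mul
        ((continuous_const.add (continuous_frq lam).norm).pow N)).aestronglyMeasurable
      (Eventually.of_forall fun ξ => ?_)
    rw [Real.norm_of_nonneg (by positivity)]
    gcongr
    exact norm_frq_le lam ξ
  · rw [e]
    congr 1
    have h1 : ρ (lam z) = (𝓕⁻ (𝓕 ρ : 𝓢(W, ℂ)) : 𝓢(W, ℂ)) (lam z) := by simp
    rw [h1, SchwartzMap.fourierInv_coe, Real.fourierInv_eq']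
    refine integral_congr_ae (Eventually.of_forall fun ξ => ?_)
    simp only [pw, frq_apply, smul_eq_mul]
    rw [mul_comm]
    congr 2
    push_cast
    ring

end fourier

section approx

/-- Cutoffs: every Schwartz function is the limit of compactly supported ones. -/
theorem exists_cut (h : 𝓢(E, ℂ)) : ∃ (χ : ℕ → E → ℝ) (u : ℕ → 𝓢(E, ℂ)),
    (∀ n z, u n z = χ n z * h z) ∧ (∀ n, HasCompactSupport (χ n)) ∧
    (∀ n, HasCompactSupport (u n)) ∧ (∀ n, tsupport (u n) ⊆ tsupport h) ∧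
    Tendsto u atTop (𝓝 h) := by
  haveI := FiniteDimensional.proper ℝ E
  let b : ContDiffBump (0 : E) := ⟨1, 2, one_pos, one_lt_two⟩
  have hb : ContDiff ℝ ∞ b := b.contDiff
  set L : ℕ → E →L[ℝ] E := fun n => ((n : ℝ) + 1)⁻¹ • ContinuousLinearMap.id ℝ E with hL
  have hLn : ∀ n, ‖L n‖ ≤ 1 := fun n => by
    refine ContinuousLinearMap.opNorm_le_bound _ zero_le_one fun z => ?_
    simp only [hL, ContinuousLinearMap.smul_apply, ContinuousLinearMap.id_apply, norm_smul,
      norm_inv]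
    refine mul_le_mul_of_nonneg_right (inv_le_one_of_one_le₀ ?_) (norm_nonneg _)
    rw [Real.norm_of_nonneg (by positivity)]
    linarith [(Nat.cast_nonneg n : (0 : ℝ) ≤ n)]
  have hcs : ∀ n, HasCompactSupport fun z => b (L n z) := fun n =>
    b.hasCompactSupport.comp_smul (c := ((n : ℝ) + 1)⁻¹) (by positivity)
  have ht : ∀ n, (fun z => (b (L n z) : ℂ)).HasTemperateGrowth := fun n =>
    ((hcs n).comp_left (g := fun x : ℝ => (x : ℂ)) (by simp)).hasTemperateGrowth
      (Complex.ofRealCLM.contDiff.comp (hb.comp (L n).contDiff))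
  refine ⟨fun n z => b (L n z), fun n => SchwartzMap.smulLeftCLM ℂ (fun z => (b (L n z) : ℂ)) h,
    fun n z => SchwartzMap.smulLeftCLM_apply_apply (ht n) h z, hcs, fun n => ?_, fun n => ?_, ?_⟩
  · rw [SchwartzMap.smulLeftCLM_apply (ht n)]
    exact ((hcs n).comp_left (g := fun x : ℝ => (x : ℂ)) (by simp)).smul_right
  · exact (SchwartzMap.tsupport_smulLeftCLM_subset _ _).trans Set.inter_subset_left
  · refine tendsto_of_sn (fun N => ?_) fun z => ?_
    · obtain ⟨k, C, hC, hbd⟩ := bd_of_temperate (b.hasCompactSupport.hasTemperateGrowth hb) N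
      refine ⟨2 ^ N * 2 ^ (N + k) * C * sn E ℂ (N + k) h, Eventually.of_forall fun n => ?_⟩
      refine sn_mul (((hbd.comp (L n) le_rfl (hLn n)).ofReal).mono fun z => ?_) h _
        (SchwartzMap.smulLeftCLM_apply_apply (ht n) h)
      rw [one_pow, one_mul]
      gcongr
      exact ((L n).le_opNorm z).trans (mul_le_of_le_one_left (norm_nonneg _) (hLn n))
    · simp only [SchwartzMap.smulLeftCLM_apply_apply (ht _), smul_eq_mul]
      have h1 : Tendsto (fun n => L n z) atTop (𝓝 0) := by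
        have := (tendsto_one_div_add_atTop_nhds_zero_nat (𝕜 := ℝ)).smul_const z
        simpa [hL] using this
      have h2 : Tendsto (fun n => b (L n z)) atTop (𝓝 1) := by
        have := (b.continuous.tendsto 0).comp h1
        rwa [b.one_of_mem_closedBall (mem_closedBall_self zero_le_one)] at this
      have h3 := ((Complex.continuous_ofReal.tendsto 1).comp h2).mul_const (h z)
      simpa using h3

variable [MeasurableSpace E] [BorelSpace E]

/-- Approximate identities. -/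
structure AI (μ : Measure E) (φ : ℕ → 𝓢(E, ℂ)) (r : ℕ → ℝ) : Prop where
  one : ∀ n, ∫ z, φ n z ∂μ = 1
  bd : ∃ C, ∀ n, ∫ z, ‖φ n z‖ ∂μ ≤ C
  supp : ∀ n, tsupport (φ n) ⊆ closedBall 0 (r n)
  lim : Tendsto r atTop (𝓝 0)

lemma exists_ai (μ : Measure E) [μ.IsAddHaarMeasure] :
    ∃ φ : ℕ → 𝓢(E, ℂ), AI μ φ (fun n => 1 / ((n : ℝ) + 1)) := by
  let b : ℕ → ContDiffBump (0 : E) := fun n =>
    ⟨1 / ((n : ℝ) + 1) / 2, 1 / ((n : ℝ) + 1), by positivity, half_lt_self (by positivity)⟩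
  have hcs : ∀ n, HasCompactSupport fun z => ((b n).normed μ z : ℂ) := fun n =>
    (b n).hasCompactSupport_normed.comp_left (g := fun x : ℝ => (x : ℂ)) (by simp)
  refine ⟨fun n => (hcs n).toSchwartzMap (Complex.ofRealCLM.contDiff.comp (b n).contDiff_normed),
    fun n => ?_, ⟨1, fun n => ?_⟩, fun n => ?_, tendsto_one_div_add_atTop_nhds_zero_nat⟩
  · change ∫ z, ((b n).normed μ z : ℂ) ∂μ = 1
    rw [integral_complex_ofReal, (b n).integral_normed]; simp
  · change ∫ z, ‖((b n).normed μ z : ℂ)‖ ∂μ ≤ 1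
    simp only [Complex.norm_real, Real.norm_of_nonneg ((b n).nonneg_normed _)]
    exact (b n).integral_normed.le
  · change tsupport (fun z => ((b n).normed μ z : ℂ)) ⊆ _
    refine (tsupport_comp_subset (g := fun x : ℝ => (x : ℂ)) (by simp) _).trans ?_
    rw [(b n).tsupport_normed_eq]

variable {μ : Measure E} [μ.IsAddHaarMeasure] {φ : ℕ → 𝓢(E, ℂ)} {r : ℕ → ℝ}

lemma sint_conv (f g : 𝓢(E, ℂ)) : SInt (fun x => f x • tsl x g) μ :=
  sint_tsl f.continuous.aestronglyMeasurable aestronglyMeasurable_id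
    (fun N => by simpa using integrable_one_add_pow (μ := μ) f 1 N) g

variable (μ) in
/-- Convolution of Schwartz functions. -/
def cnv (f g : 𝓢(E, ℂ)) : 𝓢(E, ℂ) := (sint_conv (μ := μ) f g).int

lemma cnv_apply (f g : 𝓢(E, ℂ)) (z : E) : cnv μ f g z = ∫ x, f x * g (z - x) ∂μ := rfl

lemma cnv_comm (f g : 𝓢(E, ℂ)) : cnv μ f g = cnv μ g f := by
  ext z
  rw [cnv_apply, cnv_apply, ← integral_sub_left_eq_self _ μ z]
  simp only [sub_sub_cancel, mul_comm]

lemma clm_cnv {G : Type*} [NormedAddCommGroup G] [NormedSpace ℂ G] [CompleteSpace G]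
    (Λ : 𝓢(E, ℂ) →L[ℂ] G) (f g : 𝓢(E, ℂ)) : Integrable (fun x => f x • Λ (tsl x g)) μ ∧
      Λ (cnv μ f g) = ∫ x, f x • Λ (tsl x g) ∂μ := by
  simpa only [map_smul] using (sint_conv (μ := μ) f g).clm (g := cnv μ f g) (fun _ => rfl) Λ

theorem AI.tendsto (hφ : AI μ φ r) (h : 𝓢(E, ℂ)) : Tendsto (fun n => cnv μ (φ n) h) atTop (𝓝 h) := by
  haveI := FiniteDimensional.proper ℝ E
  obtain ⟨C, hC⟩ := hφ.bd
  have hz : ∀ n x, r n < ‖x‖ → φ n x = 0 := fun n x hx => by
    by_contra h0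
    have := hφ.supp n (subset_tsupport _ h0)
    rw [mem_closedBall, dist_zero_right] at this
    linarith
  refine tendsto_of_bdd (𝕜 := ℝ) (fun k n => ?_) fun z => ?_
  · set N := max k n
    refine ⟨C * (2 ^ N * 2 ^ N * sn E ℂ N h), ?_⟩
    filter_upwards [hφ.lim.eventually (gt_mem_nhds one_pos)] with j hj
    refine ((sint_conv (μ := μ) (φ j) h).seminorm_le (g := cnv μ (φ j) h) (fun _ => rfl) k n).trans ?_
    refine le_trans (integral_mono ((sint_conv (φ j) h).seminorm k n)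
      ((φ j).integrable.norm.mul_const (2 ^ N * 2 ^ N * sn E ℂ N h)) fun x => ?_) ?_
    · refine (seminorm_le_sn (le_max_left _ _) (le_max_right _ _) _).trans
        ((sn_smul _ _ N).trans ?_)
      by_cases hx : r j < ‖x‖
      · simp [hz j x hx]
      · refine mul_le_mul_of_nonneg_left ((sn_tsl h x N).trans ?_) (norm_nonneg _)
        gcongr
        linarith
    · rw [integral_mul_const]
      exact mul_le_mul_of_nonneg_right (hC j) (by positivity)
  · rw [tendsto_iff_norm_sub_tendsto_zero]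
    have hC0 : 0 ≤ C := (integral_nonneg fun _ => norm_nonneg _).trans (hC 0)
    set L := SchwartzMap.seminorm ℝ 0 1 h
    have hL : ∀ y, ‖h y - h z‖ ≤ L * ‖y - z‖ := fun y =>
      convex_univ.norm_image_sub_le_of_norm_fderiv_le (fun x _ => h.differentiableAt)
        (fun x _ => by
          rw [← norm_iteratedFDeriv_one]; exact h.norm_iteratedFDeriv_le_seminorm ℝ 1 x)
        (Set.mem_univ z) (Set.mem_univ y)
    have hL0 : 0 ≤ L := apply_nonneg _ _
    refine squeeze_zero (fun _ => norm_nonneg _) (g := fun n => C * (L * |r n|)) (fun n => ?_) ?_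
    · have hi : Integrable (fun x => φ n x * h (z - x)) μ := (sint_conv (φ n) h).apply z
      have e : cnv μ (φ n) h z - h z = ∫ x, φ n x * (h (z - x) - h z) ∂μ := by
        simp only [mul_sub]
        rw [integral_sub hi ((φ n).integrable.mul_const _), integral_mul_const, hφ.one, one_mul,
          cnv_apply]
      rw [e]
      refine (norm_integral_le_of_norm_le ((φ n).integrable.norm.mul_const (L * |r n|))
        (Eventually.of_forall fun x => ?_)).trans ?_
      · by_cases hx : r n < ‖x‖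
        · simp [hz n x hx]
        · rw [norm_mul]
          refine mul_le_mul_of_nonneg_left ((hL _).trans ?_) (norm_nonneg _)
          rw [sub_sub_cancel_left, norm_neg]
          exact mul_le_mul_of_nonneg_left ((not_lt.1 hx).trans (le_abs_self _)) hL0
      · rw [integral_mul_const]
        exact mul_le_mul_of_nonneg_right (hC n) (by positivity)
    · simpa using (hφ.lim.abs.const_mul L).const_mul C

/-- A continuous linear map that vanishes on the small translates of an approximate identity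
vanishes. -/
theorem AI.vanish {G : Type*} [NormedAddCommGroup G] [NormedSpace ℂ G] [CompleteSpace G]
    (hφ : AI μ φ r) (Λ : 𝓢(E, ℂ) →L[ℂ] G) (h : 𝓢(E, ℂ))
    (h0 : ∀ᶠ n in atTop, ∀ y, h y ≠ 0 → Λ (tsl y (φ n)) = 0) : Λ h = 0 := by
  have h1 := (Λ.continuous.tendsto h).comp (hφ.tendsto h)
  refine tendsto_nhds_unique h1 (tendsto_const_nhds.congr' ?_)
  filter_upwards [h0] with n hn
  rw [Function.comp_apply, cnv_comm, (clm_cnv Λ h (φ n)).2]
  refine (integral_eq_zero_of_ae (Eventually.of_forall fun y => ?_)).symm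
  by_cases hy : h y = 0
  · simp [hy]
  · simp [hn y hy]

omit [FiniteDimensional ℝ E] [MeasurableSpace E] [BorelSpace E] in
lemma tsupport_tsl {g : 𝓢(E, ℂ)} {s : ℝ} (hg : tsupport g ⊆ closedBall 0 s) (y : E) :
    tsupport (tsl y g) ⊆ closedBall y s := by
  refine closure_minimal (fun z hz => ?_) isClosed_closedBall
  have := hg (subset_tsupport _ (show g (z - y) ≠ 0 from hz))
  rwa [mem_closedBall, dist_zero_right, ← dist_eq_norm] at this

end approx

/-- Uniform radius on a compact set. -/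
lemma exists_radius {Y : Type*} [PseudoMetricSpace Y] {K : Set Y} (hK : IsCompact K)
    {P : Set Y → Prop} (hP : ∀ s t, s ⊆ t → P t → P s) (h : ∀ q ∈ K, ∃ δ > 0, P (ball q δ)) :
    ∃ δ > 0, ∀ q ∈ K, P (ball q δ) := by
  choose! δ hδ hPδ using h
  obtain ⟨ε, hε, hcov⟩ := lebesgue_number_lemma_of_metric (c := fun q : K => ball (q : Y) (δ q)) hK
    (fun _ => isOpen_ball) fun q hq => Set.mem_iUnion.2 ⟨⟨q, hq⟩, mem_ball_self (hδ q hq)⟩
  refine ⟨ε, hε, fun q hq => ?_⟩
  obtain ⟨i, hi⟩ := hcov q hq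
  exact hP _ _ hi (hPδ i i.2)

/-- Reduction to compact supports. -/
theorem vanish_of_compact {G : Type*} [NormedAddCommGroup G] [NormedSpace ℂ G]
    (Λ : 𝓢(E, ℂ) →L[ℂ] G) (h : 𝓢(E, ℂ))
    (h0 : ∀ u : 𝓢(E, ℂ), HasCompactSupport u → tsupport u ⊆ tsupport h → Λ u = 0) : Λ h = 0 := by
  obtain ⟨-, u, -, -, hc, hs, hl⟩ := exists_cut h
  refine tendsto_nhds_unique ((Λ.continuous.tendsto h).comp hl)
    (tendsto_const_nhds.congr fun n => (h0 _ (hc n) (hs n)).symm)

/-- **Locality**: a distribution that vanishes near every point of the support of `h` vanishes on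
`h`. -/
theorem vanish_local {G : Type*} [NormedAddCommGroup G] [NormedSpace ℂ G] [CompleteSpace G]
    (Λ : 𝓢(E, ℂ) →L[ℂ] G) (h : 𝓢(E, ℂ))
    (h0 : ∀ q ∈ tsupport h, ∃ δ > 0, ∀ f : 𝓢(E, ℂ), tsupport f ⊆ ball q δ → Λ f = 0) :
    Λ h = 0 := by
  borelize E
  refine vanish_of_compact Λ h fun u hc hs => ?_
  obtain ⟨δ, hδ, hP⟩ := exists_radius hc (P := fun s => ∀ f : 𝓢(E, ℂ), tsupport f ⊆ s → Λ f = 0)
    (fun s t hst ht f hf => ht f (hf.trans hst)) fun q hq => h0 q (hs hq)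
  obtain ⟨φ, hφ⟩ := exists_ai (Measure.addHaar : Measure E)
  refine hφ.vanish Λ u ?_
  filter_upwards [hφ.lim.eventually (gt_mem_nhds hδ)] with n hn y hy
  exact hP y (subset_tsupport _ hy) _
    ((tsupport_tsl (hφ.supp n) y).trans (closedBall_subset_ball hn))

end Vale.Agent.P352X.ST
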