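import Vale.Agent.P352X.ST.Syn

/-!
# P352X, Schwartz toolbox: tensor products are dense (row KER)
-/

set_option linter.all false

noncomputable section

open Filter Topology Metric MeasureTheory
open scoped SchwartzMap ContDiff

namespace Vale.Agent.P352X.ST

variable {E E' E'' : Type*} [NormedAddCommGroup E] [NormedSpace ℝ E] [NormedAddCommGroup E']
  [NormedSpace ℝ E'] [NormedAddCommGroup E''] [NormedSpace ℝ E'']

lemma one_add_prod (z : E × E') : 1 + ‖z‖ ≤ (1 + ‖z.1‖) * (1 + ‖z.2‖) := by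
  have h1 := norm_nonneg z.1
  have h2 := norm_nonneg z.2
  rw [Prod.norm_def]
  rcases le_total ‖z.1‖ ‖z.2‖ with h | h
  · rw [max_eq_right h]; nlinarith
  · rw [max_eq_left h]; nlinarith

lemma bd_tens (f : 𝓢(E, ℂ)) (g : 𝓢(E', ℂ)) (N : ℕ) :
    Bd (fun z : E × E' => 8 ^ N * sn E ℂ N f * sn E' ℂ N g / (1 + ‖z‖) ^ N) N
      (fun z => f z.1 * g z.2) := by
  refine (((bd_sch f (N := N) le_rfl le_rfl).fst).mul ((bd_sch g (N := N) le_rfl le_rfl).snd)).mono
    fun z => ?_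
  have h1 : (1 + ‖z‖) ^ N ≤ (1 + ‖z.1‖) ^ N * (1 + ‖z.2‖) ^ N := by
    rw [← mul_pow]; gcongr; exact one_add_prod z
  have e : (2 : ℝ) ^ N * (2 ^ N * sn E ℂ N f / (1 + ‖z.1‖) ^ N *
      (2 ^ N * sn E' ℂ N g / (1 + ‖z.2‖) ^ N)) =
      8 ^ N * sn E ℂ N f * sn E' ℂ N g / ((1 + ‖z.1‖) ^ N * (1 + ‖z.2‖) ^ N) := by
    rw [show (8 : ℝ) = 2 * 2 * 2 by norm_num, mul_pow, mul_pow]
    field_simp
  rw [e]
  gcongr

/-- The tensor product of two Schwartz functions. -/
def tens (f : 𝓢(E, ℂ)) (g : 𝓢(E', ℂ)) : 𝓢(E × E', ℂ) :=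
  mkS (fun z => f z.1 * g z.2) fun k n =>
    ⟨_, 8 ^ max k n * sn E ℂ (max k n) f * sn E' ℂ (max k n) g,
      (bd_tens f g (max k n)).of_le (le_max_right _ _), fun z => by
        rw [← mul_div_assoc, div_le_iff₀ (by positivity), mul_comm]
        refine mul_le_mul_of_nonneg_left ((pow_le_one_add z k).trans ?_) (by positivity)
        exact pow_le_pow_right₀ (by linarith [norm_nonneg z]) (le_max_left _ _)⟩

@[simp] lemma tens_apply (f : 𝓢(E, ℂ)) (g : 𝓢(E', ℂ)) (z : E × E') : tens f g z = f z.1 * g z.2 :=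
  rfl

lemma sn_tens (f : 𝓢(E, ℂ)) (g : 𝓢(E', ℂ)) (N : ℕ) :
    sn (E × E') ℂ N (tens f g) ≤ 8 ^ N * sn E ℂ N f * sn E' ℂ N g :=
  (bd_tens f g N).sn_le fun z => le_of_eq (by field_simp)

lemma continuous_of_sn_le {F F' : Type*} [NormedAddCommGroup F] [NormedSpace ℝ F]
    [NormedAddCommGroup F'] [NormedSpace ℝ F'] (T : 𝓢(E, F) →+ 𝓢(E', F'))
    (h : ∀ N, ∃ (C : ℝ) (N' : ℕ), ∀ f, sn E' F' N (T f) ≤ C * sn E F N' f) : Continuous T := by
  refine continuous_of_tendsto_nhds_zero T (tendsto_zero_of_sn fun N => ?_)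
  obtain ⟨C, N', hC⟩ := h N
  refine squeeze_zero (fun _ => apply_nonneg _ _) hC ?_
  simpa using ((continuous_sn (E := E) (F := F) N').tendsto 0).const_mul C

/-- The tensor product with a fixed left factor. -/
def tensR (f : 𝓢(E, ℂ)) : 𝓢(E', ℂ) →L[ℂ] 𝓢(E × E', ℂ) where
  toFun := tens f
  map_add' g g' := by ext z; simp [mul_add]
  map_smul' c g := by ext z; simp; ring
  cont := continuous_of_sn_le
    (AddMonoidHom.mk' (tens f) fun g g' => by ext z; simp [mul_add])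
    fun N => ⟨8 ^ N * sn E ℂ N f, N, fun g => sn_tens f g N⟩

/-- The tensor product with a fixed right factor. -/
def tensL (g : 𝓢(E', ℂ)) : 𝓢(E, ℂ) →L[ℂ] 𝓢(E × E', ℂ) where
  toFun f := tens f g
  map_add' f f' := by ext z; simp [add_mul]
  map_smul' c f := by ext z; simp; ring
  cont := continuous_of_sn_le
    (AddMonoidHom.mk' (fun f => tens f g) fun f f' => by ext z; simp [add_mul])
    fun N => ⟨8 ^ N * sn E' ℂ N g, N, fun f => (sn_tens f g N).trans (le_of_eq (by ring))⟩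

@[simp] lemma tensR_apply (f : 𝓢(E, ℂ)) (g : 𝓢(E', ℂ)) : tensR f g = tens f g := rfl

@[simp] lemma tensL_apply (f : 𝓢(E, ℂ)) (g : 𝓢(E', ℂ)) : tensL g f = tens f g := rfl

lemma tsl_tens (y : E × E') (f : 𝓢(E, ℂ)) (g : 𝓢(E', ℂ)) :
    tsl y (tens f g) = tens (tsl y.1 f) (tsl y.2 g) := rfl

lemma tsupport_tens (f : 𝓢(E, ℂ)) (g : 𝓢(E', ℂ)) :
    tsupport (tens f g) ⊆ tsupport f ×ˢ tsupport g := by
  refine closure_minimal (fun z hz => ?_) ((isClosed_tsupport _).prod (isClosed_tsupport _))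
  have hz' : f z.1 * g z.2 ≠ 0 := hz
  exact ⟨subset_tsupport _ (left_ne_zero_of_mul hz'), subset_tsupport _ (right_ne_zero_of_mul hz')⟩

variable [FiniteDimensional ℝ E] [FiniteDimensional ℝ E'] [FiniteDimensional ℝ E'']

lemma continuous_tens : Continuous fun q : 𝓢(E, ℂ) × 𝓢(E', ℂ) => tens q.1 q.2 :=
  continuous_joint tensR
    (fun N => ⟨fun f => 8 ^ N * sn E ℂ N f, N, continuous_const.mul (continuous_sn N),
      fun f g => sn_tens f g N⟩)
    fun z => (continuous_eval.comp (continuous_fst.prodMk continuous_const)).mul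
      (continuous_eval.comp (continuous_snd.prodMk continuous_const))

lemma AI.prod [MeasurableSpace E] [BorelSpace E] [MeasurableSpace E'] [BorelSpace E']
    {μ : Measure E} {ν : Measure E'} [SFinite μ] [SFinite ν] {φ : ℕ → 𝓢(E, ℂ)} {ψ : ℕ → 𝓢(E', ℂ)}
    {r : ℕ → ℝ} (hφ : AI μ φ r) (hψ : AI ν ψ r) : AI (μ.prod ν) (fun n => tens (φ n) (ψ n)) r := by
  refine ⟨fun n => ?_, ?_, fun n => ?_, hφ.lim⟩
  · simp only [tens_apply]
    rw [integral_prod_mul (fun x => φ n x) (fun y => ψ n y), hφ.one, hψ.one, one_mul]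
  · obtain ⟨C, hC⟩ := hφ.bd
    obtain ⟨C', hC'⟩ := hψ.bd
    refine ⟨C * C', fun n => ?_⟩
    simp only [tens_apply, norm_mul]
    rw [integral_prod_mul (fun x => ‖φ n x‖) (fun y => ‖ψ n y‖)]
    exact mul_le_mul (hC n) (hC' n) (integral_nonneg fun _ => norm_nonneg _)
      ((integral_nonneg fun _ => norm_nonneg _).trans (hC n))
  · refine (tsupport_tens _ _).trans ((Set.prod_mono (hφ.supp n) (hψ.supp n)).trans ?_)
    rw [closedBall_prod_same]
    rfl

variable {G : Type*} [NormedAddCommGroup G] [NormedSpace ℂ G] [CompleteSpace G]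

/-- **KER, local form**: a distribution in two variables that vanishes on small products near
every point of the support of `h` vanishes on `h`. -/
theorem ker2_local (Λ : 𝓢(E × E', ℂ) →L[ℂ] G) (h : 𝓢(E × E', ℂ))
    (h0 : ∀ q ∈ tsupport h, ∃ δ > 0, ∀ (f : 𝓢(E, ℂ)) (g : 𝓢(E', ℂ)), HasCompactSupport f →
      HasCompactSupport g → tsupport f ⊆ ball q.1 δ → tsupport g ⊆ ball q.2 δ →
      Λ (tens f g) = 0) : Λ h = 0 := by
  borelize E E'
  haveI := FiniteDimensional.proper ℝ E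
  haveI := FiniteDimensional.proper ℝ E'
  refine vanish_of_compact Λ h fun u hc hs => ?_
  obtain ⟨δ, hδ, hP⟩ := exists_radius hc
    (P := fun s => ∀ (f : 𝓢(E, ℂ)) (g : 𝓢(E', ℂ)), HasCompactSupport f → HasCompactSupport g →
      (tsupport f).Nonempty → (tsupport g).Nonempty → tsupport f ×ˢ tsupport g ⊆ s →
      Λ (tens f g) = 0)
    (fun s t hst ht f g hf hg nf ng hfg => ht f g hf hg nf ng (hfg.trans hst)) fun q hq => by
      obtain ⟨δ, hδ, h1⟩ := h0 q (hs hq)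
      refine ⟨δ, hδ, fun f g hf hg nf ng hfg => ?_⟩
      rw [show q = (q.1, q.2) from rfl, ← ball_prod_same, Set.prod_subset_prod_iff' (nf.prod ng)]
        at hfg
      exact h1 f g hf hg hfg.1 hfg.2
  obtain ⟨φ, hφ⟩ := exists_ai (Measure.addHaar : Measure E)
  obtain ⟨ψ, hψ⟩ := exists_ai (Measure.addHaar : Measure E')
  refine (hφ.prod hψ).vanish Λ u ?_
  filter_upwards [hφ.lim.eventually (gt_mem_nhds hδ)] with n hn y hy
  rw [tsl_tens]
  have s1 := tsupport_tsl (hφ.supp n) y.1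
  have s2 := tsupport_tsl (hψ.supp n) y.2
  by_cases nf : (tsupport (tsl y.1 (φ n))).Nonempty
  · by_cases ng : (tsupport (tsl y.2 (ψ n))).Nonempty
    · refine hP y (subset_tsupport _ hy) _ _
        ((isCompact_closedBall _ _).of_isClosed_subset (isClosed_tsupport _) s1)
        ((isCompact_closedBall _ _).of_isClosed_subset (isClosed_tsupport _) s2) nf ng ?_
      refine (Set.prod_mono s1 s2).trans ?_
      rw [closedBall_prod_same]
      exact closedBall_subset_ball hn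
    · have : tsl y.2 (ψ n) = 0 := by
        ext z
        by_contra hz
        exact ng ⟨z, subset_tsupport _ hz⟩
      rw [this, ← tensR_apply, map_zero, map_zero]
  · have : tsl y.1 (φ n) = 0 := by
      ext z
      by_contra hz
      exact nf ⟨z, subset_tsupport _ hz⟩
    rw [this, ← tensL_apply, map_zero, map_zero]

/-- **KER**: a distribution in two variables that vanishes on the products with support in the
open set `U` vanishes on all Schwartz functions with support in `U`. -/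
theorem ker2 (Λ : 𝓢(E × E', ℂ) →L[ℂ] G) {U : Set (E × E')} (hU : IsOpen U)
    (h0 : ∀ (f : 𝓢(E, ℂ)) (g : 𝓢(E', ℂ)), HasCompactSupport f → HasCompactSupport g →
      tsupport f ×ˢ tsupport g ⊆ U → Λ (tens f g) = 0)
    (h : 𝓢(E × E', ℂ)) (hh : tsupport h ⊆ U) : Λ h = 0 := by
  refine ker2_local Λ h fun q hq => ?_
  obtain ⟨δ, hδ, hb⟩ := Metric.isOpen_iff.1 hU q (hh hq)
  refine ⟨δ, hδ, fun f g hf hg sf sg => h0 f g hf hg ((Set.prod_mono sf sg).trans ?_)⟩
  rw [ball_prod_same]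
  exact hb

/-- Distributions that agree on products agree. -/
theorem ext2 {Λ Λ' : 𝓢(E × E', ℂ) →L[ℂ] G}
    (h0 : ∀ (f : 𝓢(E, ℂ)) (g : 𝓢(E', ℂ)), HasCompactSupport f → HasCompactSupport g →
      Λ (tens f g) = Λ' (tens f g)) : Λ = Λ' := by
  ext h
  refine sub_eq_zero.1 (ker2 (Λ - Λ') isOpen_univ (fun f g hf hg _ => ?_) h (Set.subset_univ _))
  simp [h0 f g hf hg]

/-- **KER in three variables, local form.** -/
theorem ker3_local (Λ : 𝓢(E × E' × E'', ℂ) →L[ℂ] G) (h : 𝓢(E × E' × E'', ℂ))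
    (h0 : ∀ q ∈ tsupport h, ∃ δ > 0, ∀ (f : 𝓢(E, ℂ)) (g : 𝓢(E', ℂ)) (k : 𝓢(E'', ℂ)),
      HasCompactSupport f → HasCompactSupport g → HasCompactSupport k → tsupport f ⊆ ball q.1 δ →
      tsupport g ⊆ ball q.2.1 δ → tsupport k ⊆ ball q.2.2 δ → Λ (tens f (tens g k)) = 0) :
    Λ h = 0 := by
  refine ker2_local Λ h fun q hq => ?_
  obtain ⟨δ, hδ, h1⟩ := h0 q hq
  refine ⟨δ, hδ, fun f u hf hu sf su => ?_⟩
  refine ker2 (Λ ∘L tensR f) (U := ball q.2 δ) isOpen_ball (fun g k hg hk hs => ?_) u su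
  by_cases ng : (tsupport g).Nonempty
  · by_cases nk : (tsupport k).Nonempty
    · rw [show q.2 = (q.2.1, q.2.2) from rfl, ← ball_prod_same,
        Set.prod_subset_prod_iff' (ng.prod nk)] at hs
      exact h1 f g k hf hg hk sf hs.1 hs.2
    · have : k = 0 := by
        ext z
        by_contra hz
        exact nk ⟨z, subset_tsupport _ hz⟩
      rw [this, ← tensR_apply g, map_zero, map_zero]
  · have : g = 0 := by
      ext z
      by_contra hz
      exact ng ⟨z, subset_tsupport _ hz⟩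
    rw [this, ← tensL_apply, map_zero, map_zero]

/-- **KER in three variables.** -/
theorem ker3 (Λ : 𝓢(E × E' × E'', ℂ) →L[ℂ] G) {U : Set (E × E' × E'')} (hU : IsOpen U)
    (h0 : ∀ (f : 𝓢(E, ℂ)) (g : 𝓢(E', ℂ)) (k : 𝓢(E'', ℂ)), HasCompactSupport f →
      HasCompactSupport g → HasCompactSupport k → tsupport f ×ˢ tsupport g ×ˢ tsupport k ⊆ U →
      Λ (tens f (tens g k)) = 0)
    (h : 𝓢(E × E' × E'', ℂ)) (hh : tsupport h ⊆ U) : Λ h = 0 := by
  refine ker3_local Λ h fun q hq => ?_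
  obtain ⟨δ, hδ, hb⟩ := Metric.isOpen_iff.1 hU q (hh hq)
  refine ⟨δ, hδ, fun f g k hf hg hk sf sg sk =>
    h0 f g k hf hg hk ((Set.prod_mono sf (Set.prod_mono sg sk)).trans ?_)⟩
  rw [ball_prod_same, ball_prod_same]
  exact hb

theorem ext3 {Λ Λ' : 𝓢(E × E' × E'', ℂ) →L[ℂ] G}
    (h0 : ∀ (f : 𝓢(E, ℂ)) (g : 𝓢(E', ℂ)) (k : 𝓢(E'', ℂ)), HasCompactSupport f →
      HasCompactSupport g → HasCompactSupport k →
      Λ (tens f (tens g k)) = Λ' (tens f (tens g k))) : Λ = Λ' := by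
  ext h
  refine sub_eq_zero.1
    (ker3 (Λ - Λ') isOpen_univ (fun f g k hf hg hk _ => ?_) h (Set.subset_univ _))
  simp [h0 f g k hf hg hk]

end Vale.Agent.P352X.ST
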