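import Vale.Agent.P352X.ST.Int
import Mathlib.Analysis.SpecialFunctions.ExpDeriv

/-!
# P352X, Schwartz toolbox: a calculus of pointwise bounds for derivatives
-/

set_option linter.all false

noncomputable section

open Filter Topology Metric MeasureTheory
open scoped SchwartzMap ContDiff

namespace Vale.Agent.P352X.ST

variable {E E' F : Type*} [NormedAddCommGroup E] [NormedSpace ℝ E] [NormedAddCommGroup E']
  [NormedSpace ℝ E'] [NormedAddCommGroup F] [NormedSpace ℝ F]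

/-- `φ` is smooth and its derivatives of order at most `n` are bounded by the weight `w`. -/
def Bd (w : E → ℝ) (n : ℕ) (φ : E → F) : Prop :=
  ContDiff ℝ ∞ φ ∧ ∀ i ≤ n, ∀ z, ‖iteratedFDeriv ℝ i φ z‖ ≤ w z

lemma le_inf (i : ℕ) : (i : WithTop ℕ∞) ≤ ∞ := by exact_mod_cast le_top

namespace Bd

variable {w w' : E → ℝ} {n : ℕ} {φ ψ : E → F}

lemma nonneg (h : Bd w n φ) (z : E) : 0 ≤ w z := (norm_nonneg _).trans (h.2 0 (Nat.zero_le n) z)

lemma mono (h : Bd w n φ) (hw : ∀ z, w z ≤ w' z) : Bd w' n φ :=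
  ⟨h.1, fun i hi z => (h.2 i hi z).trans (hw z)⟩

lemma of_le (h : Bd w n φ) {m : ℕ} (hm : m ≤ n) : Bd w m φ :=
  ⟨h.1, fun i hi z => h.2 i (hi.trans hm) z⟩

lemma congr (h : Bd w n φ) (e : ∀ z, ψ z = φ z) : Bd w n ψ := by
  rw [show ψ = φ from funext e]; exact h

lemma norm_le (h : Bd w n φ) (z : E) : ‖φ z‖ ≤ w z := by
  simpa using h.2 0 (Nat.zero_le n) z

lemma add (h : Bd w n φ) (h' : Bd w' n ψ) : Bd (fun z => w z + w' z) n (fun z => φ z + ψ z) := by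
  refine ⟨h.1.add h'.1, fun i hi z => ?_⟩
  have := iteratedFDeriv_add_apply (i := i) (x := z) (h.1.of_le (le_inf i)).contDiffAt
    (h'.1.of_le (le_inf i)).contDiffAt
  rw [show (fun z => φ z + ψ z) = φ + ψ from rfl, this]
  exact (norm_add_le _ _).trans (add_le_add (h.2 i hi z) (h'.2 i hi z))

lemma neg (h : Bd w n φ) : Bd w n (fun z => -φ z) := by
  refine ⟨h.1.neg, fun i hi z => ?_⟩
  rw [show (fun z => -φ z) = -φ from rfl, iteratedFDeriv_neg_apply, norm_neg]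
  exact h.2 i hi z

lemma sub (h : Bd w n φ) (h' : Bd w' n ψ) : Bd (fun z => w z + w' z) n (fun z => φ z - ψ z) :=
  (h.add h'.neg).congr fun z => sub_eq_add_neg _ _

lemma const (c : F) (n : ℕ) : Bd (fun _ : E => ‖c‖) n (fun _ => c) := by
  refine ⟨contDiff_const, fun i _ z => ?_⟩
  rcases Nat.eq_zero_or_pos i with rfl | hi
  · simp
  · rw [iteratedFDeriv_const_of_ne hi.ne']; simp

lemma sum_le {a b : ℕ → ℝ} {A B : ℝ} (hA : ∀ j ≤ n, a j ≤ A) (hB : ∀ j ≤ n, b j ≤ B)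
    (ha : ∀ j, 0 ≤ a j) (hb : ∀ j, 0 ≤ b j) {i : ℕ} (hi : i ≤ n) :
    ∑ j ∈ Finset.range (i + 1), (i.choose j : ℝ) * a j * b (i - j) ≤ 2 ^ n * (A * B) := by
  have hA0 : 0 ≤ A := (ha 0).trans (hA 0 (Nat.zero_le n))
  have hB0 : 0 ≤ B := (hb 0).trans (hB 0 (Nat.zero_le n))
  calc ∑ j ∈ Finset.range (i + 1), (i.choose j : ℝ) * a j * b (i - j)
      ≤ ∑ j ∈ Finset.range (i + 1), (i.choose j : ℝ) * (A * B) := by
        refine Finset.sum_le_sum fun j hj => ?_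
        rw [mul_assoc]
        have hj' : j ≤ n := (Nat.lt_succ_iff.1 (Finset.mem_range.1 hj)).trans hi
        exact mul_le_mul_of_nonneg_left
          (mul_le_mul (hA j hj') (hB _ ((Nat.sub_le _ _).trans hi)) (hb _) hA0) (by positivity)
    _ = 2 ^ i * (A * B) := by
        rw [← Finset.sum_mul]
        congr 1
        exact_mod_cast Nat.sum_range_choose i
    _ ≤ 2 ^ n * (A * B) := by gcongr; norm_num

/-- Leibniz. -/
lemma smul {𝕜 : Type*} [NormedField 𝕜] [NormedAlgebra ℝ 𝕜] [NormedSpace 𝕜 F]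
    [IsScalarTower ℝ 𝕜 F] {u : E → 𝕜} (hu : Bd w n u) (h : Bd w' n φ) :
    Bd (fun z => 2 ^ n * (w z * w' z)) n (fun z => u z • φ z) := by
  refine ⟨hu.1.smul h.1, fun i hi z => ?_⟩
  refine (norm_iteratedFDeriv_smul_le hu.1 h.1 z (le_inf i)).trans ?_
  exact sum_le (a := fun j => ‖iteratedFDeriv ℝ j u z‖) (b := fun j => ‖iteratedFDeriv ℝ j φ z‖)
    (fun j hj => hu.2 j hj z) (fun j hj => h.2 j hj z) (fun _ => norm_nonneg _)
    (fun _ => norm_nonneg _) hi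

/-- Leibniz. -/
lemma mul {u v : E → ℂ} (hu : Bd w n u) (hv : Bd w' n v) :
    Bd (fun z => 2 ^ n * (w z * w' z)) n (fun z => u z * v z) := hu.smul hv

lemma const_smul {𝕜 : Type*} [NormedField 𝕜] [NormedAlgebra ℝ 𝕜] [NormedSpace 𝕜 F]
    [IsScalarTower ℝ 𝕜 F] (c : 𝕜) (h : Bd w n φ) :
    Bd (fun z => ‖c‖ * w z) n (fun z => c • φ z) := by
  refine ⟨h.1.const_smul c, fun i hi z => ?_⟩
  have := iteratedFDeriv_const_smul_apply (i := i) (x := z) (a := c)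
    (h.1.of_le (le_inf i)).contDiffAt
  rw [show (fun z => c • φ z) = c • φ from rfl, this, norm_smul]
  exact mul_le_mul_of_nonneg_left (h.2 i hi z) (norm_nonneg _)

lemma const_mul {u : E → ℂ} (c : ℂ) (h : Bd w n u) :
    Bd (fun z => ‖c‖ * w z) n (fun z => c * u z) := h.const_smul c

lemma clm {G : Type*} [NormedAddCommGroup G] [NormedSpace ℝ G] (L : F →L[ℝ] G) (h : Bd w n φ) :
    Bd (fun z => ‖L‖ * w z) n (fun z => L (φ z)) :=
  ⟨L.contDiff.comp h.1, fun i hi z =>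
    (L.norm_iteratedFDeriv_comp_left h.1.contDiffAt (le_inf i)).trans
      (mul_le_mul_of_nonneg_left (h.2 i hi z) (norm_nonneg _))⟩

lemma ofReal {u : E → ℝ} (h : Bd w n u) : Bd w n (fun z => (u z : ℂ)) :=
  (h.clm Complex.ofRealCLM).mono fun z => mul_le_of_le_one_left (h.nonneg z)
    (ContinuousLinearMap.opNorm_le_bound _ zero_le_one fun x => by simp)

lemma star {u : E → ℂ} (h : Bd w n u) : Bd w n (fun z => star (u z)) :=
  (h.clm (Complex.conjCLE : ℂ →L[ℝ] ℂ)).mono fun z => mul_le_of_le_one_left (h.nonneg z)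
    (ContinuousLinearMap.opNorm_le_bound _ zero_le_one fun x => by simp)

/-- Translations. -/
lemma add_const (h : Bd w n φ) (a : E) : Bd (fun z => w (z + a)) n (fun z => φ (z + a)) :=
  ⟨h.1.comp (contDiff_id.add contDiff_const), fun i hi z => by
    rw [iteratedFDeriv_comp_add_right]; exact h.2 i hi _⟩

lemma sub_const (h : Bd w n φ) (a : E) : Bd (fun z => w (z - a)) n (fun z => φ (z - a)) := by
  simpa only [sub_eq_add_neg] using h.add_const (-a)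

/-- Linear substitutions. -/
lemma comp (h : Bd w n φ) (L : E' →L[ℝ] E) {M : ℝ} (h1 : 1 ≤ M) (hM : ‖L‖ ≤ M) :
    Bd (fun z => M ^ n * w (L z)) n (fun z => φ (L z)) := by
  refine ⟨h.1.comp L.contDiff, fun i hi z => ?_⟩
  rw [show (fun z => φ (L z)) = φ ∘ L from rfl, L.iteratedFDeriv_comp_right h.1 z (le_inf i)]
  refine (ContinuousMultilinearMap.norm_compContinuousLinearMap_le _ _).trans ?_
  simp only [Finset.prod_const, Finset.card_fin]
  rw [mul_comm]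
  refine mul_le_mul ?_ (h.2 i hi _) (norm_nonneg _) (by positivity)
  calc ‖L‖ ^ i ≤ M ^ i := by gcongr
    _ ≤ M ^ n := pow_le_pow_right₀ h1 hi

lemma comp' (h : Bd w n φ) (L : E' →L[ℝ] E) :
    Bd (fun z => (1 + ‖L‖) ^ n * w (L z)) n (fun z => φ (L z)) :=
  h.comp L (by linarith [norm_nonneg L]) (by linarith)

lemma fst (h : Bd w n φ) : Bd (fun z : E × E' => w z.1) n (fun z => φ z.1) := by
  simpa using h.comp (ContinuousLinearMap.fst ℝ E E') le_rfl (ContinuousLinearMap.norm_fst_le ..)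

lemma snd (h : Bd w n φ) : Bd (fun z : E' × E => w z.2) n (fun z => φ z.2) := by
  simpa using h.comp (ContinuousLinearMap.snd ℝ E' E) le_rfl (ContinuousLinearMap.norm_snd_le ..)

/-- Directional derivatives. -/
lemma fderiv_apply (h : Bd w (n + 1) φ) (v : E) :
    Bd (fun z => ‖v‖ * w z) n (fun z => fderiv ℝ φ z v) := by
  have hd : ContDiff ℝ ∞ (fderiv ℝ φ) := h.1.fderiv_right (m := ∞) le_rfl
  refine ⟨hd.clm_apply contDiff_const, fun i hi z => ?_⟩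
  refine (norm_iteratedFDeriv_clm_apply_const hd.contDiffAt (le_inf i)).trans ?_
  rw [norm_iteratedFDeriv_fderiv]
  exact mul_le_mul_of_nonneg_left (h.2 _ (Nat.succ_le_succ hi) z) (norm_nonneg _)

lemma linear (L : E →L[ℝ] F) (n : ℕ) : Bd (fun z => ‖L‖ * (1 + ‖z‖)) n (fun z => L z) := by
  refine ⟨L.contDiff, fun i _ z => ?_⟩
  have hz := norm_nonneg z
  have hL := norm_nonneg L
  rcases i with _ | i
  · rw [norm_iteratedFDeriv_zero]
    exact (L.le_opNorm z).trans (by nlinarith)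
  · rw [← norm_iteratedFDeriv_fderiv]
    have : fderiv ℝ (fun z => L z) = fun _ => L := funext fun z => L.fderiv
    rw [this]
    exact ((const L i).2 i le_rfl z).trans (by nlinarith)

lemma seminorm_le {g : 𝓢(E, F)} (h : Bd w n g) {k : ℕ} {C : ℝ} (hC : ∀ z, ‖z‖ ^ k * w z ≤ C) :
    SchwartzMap.seminorm ℝ k n g ≤ C :=
  SchwartzMap.seminorm_le_bound ℝ k n g
    ((mul_nonneg (by positivity) (h.nonneg 0)).trans (hC 0)) fun z =>
    (mul_le_mul_of_nonneg_left (h.2 n le_rfl z) (by positivity)).trans (hC z)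

end Bd

/-- The exponential `e^{i s}`. -/
lemma bd_cexp (n : ℕ) : Bd (fun _ : ℝ => 1) n (fun s : ℝ => Complex.exp (Complex.I * s)) := by
  have hs : ContDiff ℝ ∞ (fun s : ℝ => Complex.exp (Complex.I * s)) :=
    Complex.contDiff_exp.comp (contDiff_const.mul Complex.ofRealCLM.contDiff)
  refine ⟨hs, fun i _ z => ?_⟩
  rw [norm_iteratedFDeriv_eq_norm_iteratedDeriv]
  have key : ∀ j, iteratedDeriv j (fun s : ℝ => Complex.exp (Complex.I * s)) =
      fun s : ℝ => Complex.I ^ j * Complex.exp (Complex.I * s) := by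
    intro j
    induction j with
    | zero => simp
    | succ j ih =>
      rw [iteratedDeriv_succ, ih]
      ext s
      have h1 : HasDerivAt (fun s : ℝ => Complex.I * (s : ℂ)) (Complex.I * 1) s :=
        (Complex.ofRealCLM.hasDerivAt).const_mul Complex.I
      rw [(h1.cexp.const_mul _).deriv]
      ring
  rw [key]
  simp [Complex.norm_exp]

/-- Plane waves. -/
def pw (l : E →L[ℝ] ℝ) (z : E) : ℂ := Complex.exp (Complex.I * l z)

lemma bd_pw (l : E →L[ℝ] ℝ) (n : ℕ) : Bd (fun _ => (1 + ‖l‖) ^ n) n (pw l) := by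
  exact ((bd_cexp n).comp' l).mono fun z => by simp

lemma norm_pw (l : E →L[ℝ] ℝ) (z : E) : ‖pw l z‖ = 1 := by simp [pw, Complex.norm_exp]

lemma temperate_of_bd {φ : E → F}
    (h : ∀ n, ∃ (k : ℕ) (C : ℝ), Bd (fun z => C * (1 + ‖z‖) ^ k) n φ) : φ.HasTemperateGrowth := by
  refine ⟨(h 0).choose_spec.choose_spec.1, fun n => ?_⟩
  obtain ⟨k, C, hb⟩ := h n
  exact ⟨k, C, hb.2 n le_rfl⟩

lemma bd_of_temperate {φ : E → F} (h : φ.HasTemperateGrowth) (n : ℕ) :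
    ∃ (k : ℕ) (C : ℝ), 0 ≤ C ∧ Bd (fun z => C * (1 + ‖z‖) ^ k) n φ := by
  obtain ⟨k, C, hC, hb⟩ := h.norm_iteratedFDeriv_le_uniform n
  exact ⟨k, C, hC, h.1, hb⟩

lemma temperate_pw (l : E →L[ℝ] ℝ) : (pw l).HasTemperateGrowth :=
  temperate_of_bd fun n => ⟨0, (1 + ‖l‖) ^ n, by simpa using bd_pw l n⟩

/-- A Schwartz function from bounds. -/
def mkS (φ : E → F) (h : ∀ k n, ∃ (w : E → ℝ) (C : ℝ), Bd w n φ ∧ ∀ z, ‖z‖ ^ k * w z ≤ C) :
    𝓢(E, F) where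
  toFun := φ
  smooth' := (h 0 0).choose_spec.choose_spec.1.1
  decay' k n := by
    obtain ⟨w, C, hb, hC⟩ := h k n
    exact ⟨C, fun z =>
      (mul_le_mul_of_nonneg_left (hb.2 n le_rfl z) (by positivity)).trans (hC z)⟩

@[simp] lemma mkS_apply (φ : E → F) (h) (z : E) : mkS φ h z = φ z := rfl

variable (E F) in
/-- The norms of Schwartz space. -/
def sn (N : ℕ) : Seminorm ℝ 𝓢(E, F) := (Finset.Iic (N, N)).sup (schwartzSeminormFamily ℝ E F)

lemma sn_mono {N N' : ℕ} (h : N ≤ N') (g : 𝓢(E, F)) : sn E F N g ≤ sn E F N' g := by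
  have hs : Finset.Iic (N, N) ⊆ Finset.Iic (N', N') := fun m hm => by
    rw [Finset.mem_Iic] at hm ⊢
    exact hm.trans ⟨h, h⟩
  exact Seminorm.le_def.1 (Finset.sup_mono hs) g

lemma seminorm_le_sn {k n N : ℕ} (hk : k ≤ N) (hn : n ≤ N) (g : 𝓢(E, F)) :
    SchwartzMap.seminorm ℝ k n g ≤ sn E F N g :=
  Seminorm.le_def.1 (Finset.le_sup (f := schwartzSeminormFamily ℝ E F)
    (Finset.mem_Iic.2 (⟨hk, hn⟩ : (k, n) ≤ (N, N)))) g

lemma sn_le {N : ℕ} {g : 𝓢(E, F)} {C : ℝ} (hC : 0 ≤ C)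
    (h : ∀ k ≤ N, ∀ n ≤ N, SchwartzMap.seminorm ℝ k n g ≤ C) : sn E F N g ≤ C :=
  Seminorm.finset_sup_apply_le hC fun m hm => h m.1 (Finset.mem_Iic.1 hm).1 m.2 (Finset.mem_Iic.1 hm).2

/-- The bound `sn N g ≤ C` from a weight. -/
lemma Bd.sn_le {w : E → ℝ} {N : ℕ} {g : 𝓢(E, F)} (h : Bd w N g) {C : ℝ}
    (hC : ∀ z, (1 + ‖z‖) ^ N * w z ≤ C) : sn E F N g ≤ C := by
  refine ST.sn_le ((mul_nonneg (by positivity) (h.nonneg 0)).trans (hC 0)) fun k hk n hn => ?_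
  refine (h.of_le hn).seminorm_le fun z => le_trans ?_ (hC z)
  refine mul_le_mul_of_nonneg_right ?_ (h.nonneg z)
  have := norm_nonneg z
  calc ‖z‖ ^ k ≤ (1 + ‖z‖) ^ k := by gcongr; linarith
    _ ≤ (1 + ‖z‖) ^ N := pow_le_pow_right₀ (by linarith) hk

/-- The weight of a Schwartz function. -/
lemma bd_sch (g : 𝓢(E, F)) {k n N : ℕ} (hk : k ≤ N) (hn : n ≤ N) :
    Bd (fun z => 2 ^ N * sn E F N g / (1 + ‖z‖) ^ k) n g := by
  refine ⟨g.smooth ⊤, fun i hi z => ?_⟩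
  rw [le_div_iff₀ (by positivity), mul_comm]
  exact SchwartzMap.one_add_le_sup_seminorm_apply (𝕜 := ℝ) (m := (N, N)) hk (hi.trans hn) g z

lemma continuous_sn (N : ℕ) : Continuous (sn E F N) :=
  Seminorm.continuous_finsetSup fun m _ => (schwartz_withSeminorms ℝ E F).continuous_seminorm m

lemma exists_sn (p : Seminorm ℝ 𝓢(E, F)) (hp : Continuous p) :
    ∃ (C : ℝ) (N : ℕ), 0 ≤ C ∧ ∀ f, p f ≤ C * sn E F N f := by
  obtain ⟨s, C, -, h⟩ := Seminorm.bound_of_continuous (schwartz_withSeminorms ℝ E F) p hp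
  refine ⟨C, s.sup (fun m => max m.1 m.2), C.2, fun f => ?_⟩
  have h1 : p f ≤ C * (s.sup (schwartzSeminormFamily ℝ E F)) f := Seminorm.le_def.1 h f
  refine h1.trans (mul_le_mul_of_nonneg_left ?_ C.2)
  refine Seminorm.finset_sup_apply_le (apply_nonneg _ _) fun m hm => ?_
  have := Finset.le_sup (f := fun m : ℕ × ℕ => max m.1 m.2) hm
  exact seminorm_le_sn ((le_max_left _ _).trans this) ((le_max_right _ _).trans this) f

/-- Continuous linear maps have finite order. -/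
lemma clm_sn {G : Type*} [NormedAddCommGroup G] [NormedSpace ℝ G] (L : 𝓢(E, F) →L[ℝ] G) :
    ∃ (C : ℝ) (N : ℕ), 0 ≤ C ∧ ∀ f, ‖L f‖ ≤ C * sn E F N f :=
  exists_sn ((normSeminorm ℝ G).comp (L : 𝓢(E, F) →ₗ[ℝ] G)) L.continuous.norm

lemma clm_sn_c {G : Type*} [NormedAddCommGroup G] [NormedSpace ℂ G] (L : 𝓢(E, ℂ) →L[ℂ] G) :
    ∃ (C : ℝ) (N : ℕ), 0 ≤ C ∧ ∀ f, ‖L f‖ ≤ C * sn E ℂ N f :=
  clm_sn (L.restrictScalars ℝ)

lemma clm_sn' {F' : Type*} [NormedAddCommGroup F'] [NormedSpace ℝ F']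
    (L : 𝓢(E, F) →L[ℝ] 𝓢(E', F')) (N' : ℕ) :
    ∃ (C : ℝ) (N : ℕ), 0 ≤ C ∧ ∀ f, sn E' F' N' (L f) ≤ C * sn E F N f :=
  exists_sn ((sn E' F' N').comp (L : 𝓢(E, F) →ₗ[ℝ] 𝓢(E', F'))) ((continuous_sn N').comp L.continuous)

/-- Peetre's inequality. -/
lemma peetre (z a : E) : 1 + ‖z‖ ≤ (1 + ‖a‖) * (1 + ‖z - a‖) := by
  have h := norm_le_norm_add_norm_sub' z a
  nlinarith [norm_nonneg a, norm_nonneg (z - a)]

lemma pow_le_one_add (z : E) (k : ℕ) : ‖z‖ ^ k ≤ (1 + ‖z‖) ^ k := by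
  have := norm_nonneg z
  gcongr; linarith

/-- Translates of a Schwartz function. -/
lemma sn_tsl (g : 𝓢(E, ℂ)) (a : E) (N : ℕ) :
    sn E ℂ N (g.compSubConstCLM ℂ a) ≤ 2 ^ N * (1 + ‖a‖) ^ N * sn E ℂ N g := by
  refine Bd.sn_le ((bd_sch g le_rfl le_rfl).sub_const a) fun z => ?_
  have h1 : (1 + ‖z‖) ^ N ≤ (1 + ‖a‖) ^ N * (1 + ‖z - a‖) ^ N := by
    rw [← mul_pow]; gcongr; exact peetre z a
  rw [← mul_div_assoc, div_le_iff₀ (by positivity)]
  have h2 : 0 ≤ 2 ^ N * sn E ℂ N g := by positivity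
  calc (1 + ‖z‖) ^ N * (2 ^ N * sn E ℂ N g)
      ≤ ((1 + ‖a‖) ^ N * (1 + ‖z - a‖) ^ N) * (2 ^ N * sn E ℂ N g) := by gcongr
    _ = _ := by ring

/-- Multiplication by a function with a polynomial bound. -/
lemma sn_mul {u : E → ℂ} {N l : ℕ} {A : ℝ} (hu : Bd (fun z => A * (1 + ‖z‖) ^ l) N u)
    (g h : 𝓢(E, ℂ)) (e : ∀ z, h z = u z * g z) :
    sn E ℂ N h ≤ 2 ^ N * 2 ^ (N + l) * A * sn E ℂ (N + l) g := by
  have hb := (hu.mul (bd_sch g (k := N + l) le_rfl (Nat.le_add_right N l))).congr e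
  refine hb.sn_le fun z => le_of_eq ?_
  have : (0 : ℝ) < 1 + ‖z‖ := by positivity
  field_simp
  ring

/-- Modulation. -/
def mdl (l : E →L[ℝ] ℝ) : 𝓢(E, ℂ) →L[ℂ] 𝓢(E, ℂ) := SchwartzMap.smulLeftCLM ℂ (pw l)

lemma mdl_apply (l : E →L[ℝ] ℝ) (g : 𝓢(E, ℂ)) (z : E) : mdl l g z = pw l z * g z :=
  SchwartzMap.smulLeftCLM_apply_apply (temperate_pw l) g z

lemma sn_mdl (l : E →L[ℝ] ℝ) (g : 𝓢(E, ℂ)) (N : ℕ) :
    sn E ℂ N (mdl l g) ≤ 4 ^ N * (1 + ‖l‖) ^ N * sn E ℂ N g := by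
  have := sn_mul (l := 0) (A := (1 + ‖l‖) ^ N) (by simpa using bd_pw l N) g _ (mdl_apply l g)
  refine this.trans (le_of_eq ?_)
  rw [add_zero, ← mul_pow]; norm_num

/-- Linear substitutions. -/
lemma sn_comp (L : E' →L[ℝ] E) {M K : ℝ} (h1 : 1 ≤ M) (hM : ‖L‖ ≤ M) (hK1 : 1 ≤ K)
    (hK : ∀ z, ‖z‖ ≤ K * ‖L z‖) (g : 𝓢(E, F)) (h : 𝓢(E', F)) (e : ∀ z, h z = g (L z)) (N : ℕ) :
    sn E' F N h ≤ 2 ^ N * M ^ N * K ^ N * sn E F N g := by
  refine (((bd_sch g le_rfl le_rfl).comp L h1 hM).congr e).sn_le fun z => ?_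
  have h2 : (1 + ‖z‖) ^ N ≤ K ^ N * (1 + ‖L z‖) ^ N := by
    rw [← mul_pow]
    have := hK z
    gcongr
    nlinarith [norm_nonneg (L z)]
  have h3 : 0 ≤ M ^ N * (2 ^ N * sn E F N g / (1 + ‖L z‖) ^ N) := by positivity
  refine (mul_le_mul_of_nonneg_right h2 h3).trans (le_of_eq ?_)
  have : (0 : ℝ) < 1 + ‖L z‖ := by positivity
  field_simp

lemma sn_smul (c : ℂ) (g : 𝓢(E, ℂ)) (N : ℕ) : sn E ℂ N (c • g) ≤ ‖c‖ * sn E ℂ N g := by
  refine sn_le (by positivity) fun k hk n hn => ?_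
  rw [← seminorm_eq (𝕜 := ℂ), map_smul_eq_mul, seminorm_eq]
  exact mul_le_mul_of_nonneg_left (seminorm_le_sn hk hn g) (norm_nonneg _)

/-- Montel property in terms of the norms `sn`. -/
theorem tendsto_of_sn [ProperSpace E] {ι : Type*} {l : Filter ι} {g : ι → 𝓢(E, F)} {g₀ : 𝓢(E, F)}
    (hb : ∀ N, ∃ C, ∀ᶠ i in l, sn E F N (g i) ≤ C)
    (hp : ∀ z, Tendsto (fun i => g i z) l (𝓝 (g₀ z))) : Tendsto g l (𝓝 g₀) :=
  tendsto_of_bdd (𝕜 := ℝ) (fun k n => (hb (max k n)).imp fun _ hC => hC.mono fun _ hi =>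
    (seminorm_le_sn (le_max_left _ _) (le_max_right _ _) _).trans hi) hp

theorem continuous_of_sn [ProperSpace E] {X : Type*} [TopologicalSpace X] {g : X → 𝓢(E, F)}
    (hb : ∀ N, ∃ b : X → ℝ, Continuous b ∧ ∀ y, sn E F N (g y) ≤ b y)
    (hp : ∀ z, Continuous fun x => g x z) : Continuous g :=
  continuous_of_bound (𝕜 := ℝ) (fun k n => (hb (max k n)).imp fun _ hC => ⟨hC.1, fun y =>
    (seminorm_le_sn (le_max_left _ _) (le_max_right _ _) _).trans (hC.2 y)⟩) hp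

lemma SInt.of_sn {X : Type*} [MeasurableSpace X] {μ : Measure X} {Φ : X → 𝓢(E, F)}
    (hm : AEStronglyMeasurable Φ μ)
    (hb : ∀ N, ∃ b : X → ℝ, Integrable b μ ∧ ∀ᵐ x ∂μ, sn E F N (Φ x) ≤ b x) : SInt Φ μ :=
  ⟨hm, fun k n => (hb (max k n)).imp fun _ hC => ⟨hC.1, hC.2.mono fun _ hx =>
    (seminorm_le_sn (le_max_left _ _) (le_max_right _ _) _).trans hx⟩⟩

lemma tendsto_zero_of_sn {ι : Type*} {l : Filter ι} {g : ι → 𝓢(E, F)}
    (h : ∀ N, Tendsto (fun i => sn E F N (g i)) l (𝓝 0)) : Tendsto g l (𝓝 0) := by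
  rw [(schwartz_withSeminorms ℝ E F).tendsto_nhds g 0]
  rintro ⟨k, n⟩ ε hε
  filter_upwards [(h (max k n)).eventually (gt_mem_nhds hε)] with i hi
  rw [sub_zero]
  exact (seminorm_le_sn (le_max_left _ _) (le_max_right _ _) _).trans_lt hi

end Vale.Agent.P352X.ST
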