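import Vale.Agent.P352X.ST.Montel
import Mathlib.Analysis.Calculus.ParametricIntegral
import Mathlib.MeasureTheory.SpecificCodomains.Pi

/-!
# P352X, Schwartz toolbox: integrals with values in Schwartz space
-/

set_option linter.all false

noncomputable section

open Filter Topology Metric MeasureTheory
open scoped SchwartzMap ContDiff BoundedContinuousFunction

namespace Vale.Agent.P352X.ST

section abstract

/-- If `‖Λ g‖ ≤ C ‖ι g‖` and `ι h = ∫ ι Φ`, then `Λ h = ∫ Λ Φ`. -/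
lemma int_abstract {S B G X : Type*} [AddCommGroup S] [Module ℝ S] [TopologicalSpace S]
    [NormedAddCommGroup B] [NormedSpace ℝ B] [CompleteSpace B] [NormedAddCommGroup G]
    [NormedSpace ℝ G] [CompleteSpace G] [MeasurableSpace X] {μ : Measure X}
    (ι : S →L[ℝ] B) (Λ : S →L[ℝ] G) {C : ℝ} (hC : ∀ g, ‖Λ g‖ ≤ C * ‖ι g‖) {Φ : X → S}
    (hm : AEStronglyMeasurable Φ μ) (hi : Integrable (fun x => ι (Φ x)) μ) {h : S}
    (hh : ι h = ∫ x, ι (Φ x) ∂μ) :
    Integrable (fun x => Λ (Φ x)) μ ∧ Λ h = ∫ x, Λ (Φ x) ∂μ := by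
  have hΛ : Integrable (fun x => Λ (Φ x)) μ :=
    (hi.norm.const_mul C).mono' (Λ.continuous.comp_aestronglyMeasurable hm)
      (Eventually.of_forall fun x => hC _)
  refine ⟨hΛ, ?_⟩
  set Γ : Submodule ℝ (B × G) := (LinearMap.range (ι.prod Λ : S →ₗ[ℝ] B × G)).topologicalClosure
    with hΓ
  have hcl : IsClosed (Γ : Set (B × G)) := Submodule.isClosed_topologicalClosure _
  haveI : CompleteSpace Γ := hcl.completeSpace_coe
  have hmem : ∀ g, (ι.prod Λ) g ∈ Γ := fun g =>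
    Submodule.le_topologicalClosure _ ⟨g, rfl⟩
  have hb : ∀ q ∈ Γ, ‖q.2‖ ≤ C * ‖q.1‖ := by
    intro q hq
    have hc : IsClosed {q : B × G | ‖q.2‖ ≤ C * ‖q.1‖} :=
      isClosed_le (by fun_prop) (by fun_prop)
    refine closure_minimal ?_ hc hq
    rintro _ ⟨g, rfl⟩
    exact hC g
  set κ : S →L[ℝ] Γ := (ι.prod Λ).codRestrict Γ hmem with hκ
  have hp : Integrable (fun x => (ι.prod Λ) (Φ x)) μ := hi.prodMk hΛ
  have hκi : Integrable (fun x => κ (Φ x)) μ :=
    hp.norm.mono' (κ.continuous.comp_aestronglyMeasurable hm) (Eventually.of_forall fun x => le_rfl)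
  have h1 := Γ.subtypeL.integral_comp_comm hκi
  have h2 : ∫ x, (ι.prod Λ) (Φ x) ∂μ ∈ Γ := by
    have : ∫ x, (ι.prod Λ) (Φ x) ∂μ = Γ.subtypeL (∫ x, κ (Φ x) ∂μ) := h1
    rw [this]
    exact (∫ x, κ (Φ x) ∂μ).2
  have h3 := hb _ (Γ.sub_mem (hmem h) h2)
  have e1 : ((ι.prod Λ) h - ∫ x, (ι.prod Λ) (Φ x) ∂μ).1 = 0 := by
    have := (ContinuousLinearMap.fst ℝ B G).integral_comp_comm hp
    simp only [ContinuousLinearMap.prod_apply, ContinuousLinearMap.coe_fst'] at this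
    simp only [ContinuousLinearMap.prod_apply, Prod.fst_sub, ← this, hh, sub_self]
  have e2 : ((ι.prod Λ) h - ∫ x, (ι.prod Λ) (Φ x) ∂μ).2 = Λ h - ∫ x, Λ (Φ x) ∂μ := by
    have := (ContinuousLinearMap.snd ℝ B G).integral_comp_comm hp
    simp only [ContinuousLinearMap.prod_apply, ContinuousLinearMap.coe_snd'] at this
    simp only [ContinuousLinearMap.prod_apply, Prod.snd_sub, ← this]
  rw [e1, e2, norm_zero, mul_zero] at h3
  exact sub_eq_zero.1 (norm_le_zero_iff.1 h3)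

end abstract

variable {E F : Type*} [NormedAddCommGroup E] [NormedSpace ℝ E] [NormedAddCommGroup F]
  [NormedSpace ℝ F]

variable (E F) in
/-- The space of `n`-linear maps (a synonym, to fix the instances). -/
def ML (n : ℕ) := E [×n]→L[ℝ] F

instance (n : ℕ) : NormedAddCommGroup (ML E F n) :=
  inferInstanceAs (NormedAddCommGroup (E [×n]→L[ℝ] F))

instance (n : ℕ) : NormedSpace ℝ (ML E F n) := inferInstanceAs (NormedSpace ℝ (E [×n]→L[ℝ] F))

instance [CompleteSpace F] (n : ℕ) : CompleteSpace (ML E F n) :=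
  inferInstanceAs (CompleteSpace (E [×n]→L[ℝ] F))

/-- The iterated derivatives. -/
def dD (n : ℕ) (g : E → F) (z : E) : ML E F n := iteratedFDeriv ℝ n g z

lemma norm_dD (n : ℕ) (g : E → F) (z : E) : ‖dD n g z‖ = ‖iteratedFDeriv ℝ n g z‖ := rfl

lemma diff_dD {g : E → F} (hg : ContDiff ℝ ∞ g) (n : ℕ) : Differentiable ℝ (dD n g) :=
  diff_iter hg n

variable (E F) in
/-- Currying. -/
def cur (n : ℕ) : ML E F (n + 1) ≃ₗᵢ[ℝ] (E →L[ℝ] ML E F n) :=
  continuousMultilinearCurryLeftEquiv ℝ (fun _ : Fin (n + 1) => E) F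

variable (E F) in
/-- Currying. -/
def cur0 : ML E F 0 ≃ₗᵢ[ℝ] F := continuousMultilinearCurryFin0 ℝ E F

lemma fderiv_dD (n : ℕ) (g : E → F) (z : E) : fderiv ℝ (dD n g) z = cur E F n (dD (n + 1) g z) :=
  rfl

lemma dD_zero (g : E → F) (z : E) : dD 0 g z = (cur0 E F).symm (g z) := rfl

/-- The weighted derivative as a bounded continuous function. -/
def wd0 (k n : ℕ) (g : 𝓢(E, F)) : E →ᵇ ML E F n :=
  BoundedContinuousFunction.ofNormedAddCommGroup (fun z => ‖z‖ ^ k • dD n g z)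
    ((continuous_norm.pow k).smul (diff_dD (g.smooth ⊤) n).continuous)
    (SchwartzMap.seminorm ℝ k n g) (fun z => by
      rw [norm_smul, norm_pow, norm_norm]; exact g.le_seminorm ℝ k n z)

lemma norm_wd0_le (k n : ℕ) (g : 𝓢(E, F)) : ‖wd0 k n g‖ ≤ SchwartzMap.seminorm ℝ k n g :=
  BoundedContinuousFunction.norm_ofNormedAddCommGroup_le _ (apply_nonneg _ _) _

/-- The weighted derivatives of a Schwartz function, as bounded continuous functions. -/
def wd (k n : ℕ) : 𝓢(E, F) →L[ℝ] E →ᵇ ML E F n :=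
  SchwartzMap.mkCLMtoNormedSpace (σ := RingHom.id ℝ) (wd0 k n)
    (fun f g => by
      ext1 z
      change ‖z‖ ^ k • dD n _ z = ‖z‖ ^ k • dD n f z + ‖z‖ ^ k • dD n g z
      rw [← smul_add]
      congr 1
      exact iteratedFDeriv_add_apply ((f.smooth n).contDiffAt) ((g.smooth n).contDiffAt))
    (fun a f => by
      ext1 z
      change ‖z‖ ^ k • dD n _ z = a • ‖z‖ ^ k • dD n f z
      rw [smul_comm a]
      congr 1
      exact iteratedFDeriv_const_smul_apply ((f.smooth n).contDiffAt))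
    ⟨{(k, n)}, 1, zero_le_one, fun f => by
      rw [Finset.sup_singleton, one_mul]
      exact norm_wd0_le k n f⟩

lemma wd_apply (k n : ℕ) (g : 𝓢(E, F)) (z : E) : wd k n g z = ‖z‖ ^ k • dD n g z := rfl

lemma norm_wd (k n : ℕ) (g : 𝓢(E, F)) : ‖wd k n g‖ = SchwartzMap.seminorm ℝ k n g := by
  refine le_antisymm (norm_wd0_le k n g)
    (SchwartzMap.seminorm_le_bound ℝ k n g (norm_nonneg _) fun z => ?_)
  have := (wd k n g).norm_coe_le_norm z
  rwa [wd_apply, norm_smul, norm_pow, norm_norm] at this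

lemma seminorm_eq {𝕜 : Type*} [NormedField 𝕜] [NormedSpace 𝕜 F] [SMulCommClass ℝ 𝕜 F] (k n : ℕ)
    (g : 𝓢(E, F)) : SchwartzMap.seminorm 𝕜 k n g = SchwartzMap.seminorm ℝ k n g := by
  rw [SchwartzMap.seminorm_apply, SchwartzMap.seminorm_apply]

variable {X : Type*} [MeasurableSpace X] {μ : Measure X} {Φ : X → 𝓢(E, F)}

/-- Integrable families of Schwartz functions. -/
structure SInt (Φ : X → 𝓢(E, F)) (μ : Measure X) : Prop where
  meas : AEStronglyMeasurable Φ μ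
  bd : ∀ k n, ∃ b : X → ℝ, Integrable b μ ∧ ∀ᵐ x ∂μ, SchwartzMap.seminorm ℝ k n (Φ x) ≤ b x

lemma SInt.wd (h : SInt Φ μ) (k n : ℕ) : Integrable (fun x => wd k n (Φ x)) μ := by
  obtain ⟨b, hb, hle⟩ := h.bd k n
  exact hb.mono' ((ST.wd k n).continuous.comp_aestronglyMeasurable h.meas)
    (hle.mono fun x hx => by rwa [norm_wd])

lemma SInt.seminorm (h : SInt Φ μ) (k n : ℕ) :
    Integrable (fun x => SchwartzMap.seminorm ℝ k n (Φ x)) μ := by
  simpa only [norm_wd] using (h.wd k n).norm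

lemma SInt.evD (h : SInt Φ μ) (n : ℕ) (z : E) : Integrable (fun x => dD n (Φ x) z) μ := by
  have := (BoundedContinuousFunction.evalCLM ℝ z).integrable_comp (h.wd 0 n)
  simpa [wd_apply] using this

lemma SInt.apply (h : SInt Φ μ) (z : E) : Integrable (fun x => Φ x z) μ := by
  have := (cur0 E F).toContinuousLinearEquiv.toContinuousLinearMap.integrable_comp (h.evD 0 z)
  simpa [dD_zero] using this

variable [CompleteSpace F]

lemma SInt.hasFDerivAt (h : SInt Φ μ) (n : ℕ) (z : E) :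
    HasFDerivAt (fun z => ∫ x, dD n (Φ x) z ∂μ) (cur E F n (∫ x, dD (n + 1) (Φ x) z ∂μ)) z := by
  set e := cur E F n with he
  have hi : Integrable (fun x => e (dD (n + 1) (Φ x) z)) μ :=
    e.toContinuousLinearEquiv.toContinuousLinearMap.integrable_comp (h.evD (n + 1) z)
  have key := hasFDerivAt_integral_of_dominated_of_fderiv_le (μ := μ)
    (F := fun z x => dD n (Φ x) z)
    (F' := fun z x => e (dD (n + 1) (Φ x) z)) (x₀ := z) (s := Set.univ)
    (bound := fun x => SchwartzMap.seminorm ℝ 0 (n + 1) (Φ x)) univ_mem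
    (Eventually.of_forall fun y => (h.evD n y).aestronglyMeasurable) (h.evD n z)
    hi.aestronglyMeasurable
    (Eventually.of_forall fun x y _ => by
      rw [LinearIsometryEquiv.norm_map]
      exact (Φ x).norm_iteratedFDeriv_le_seminorm ℝ _ _)
    (h.seminorm 0 (n + 1))
    (Eventually.of_forall fun x y _ => (diff_dD ((Φ x).smooth ⊤) n y).hasFDerivAt)
  have e2 := e.toContinuousLinearEquiv.toContinuousLinearMap.integral_comp_comm (h.evD (n + 1) z)
  have e3 : ∫ x, e (dD (n + 1) (Φ x) z) ∂μ = e (∫ x, dD (n + 1) (Φ x) z ∂μ) := e2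
  rwa [e3] at key

lemma SInt.iter (h : SInt Φ μ) (n : ℕ) :
    dD n (fun z => ∫ x, Φ x z ∂μ) = fun z => ∫ x, dD n (Φ x) z ∂μ := by
  induction n with
  | zero =>
    ext1 z
    have e2 := (cur0 E F).symm.toContinuousLinearEquiv.toContinuousLinearMap.integral_comp_comm
      (h.apply z)
    exact e2.symm
  | succ n ih =>
    ext1 z
    apply (cur E F n).injective
    rw [← fderiv_dD, ih, (h.hasFDerivAt n z).fderiv]

lemma SInt.bound (h : SInt Φ μ) (k n : ℕ) (z : E) :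
    ‖z‖ ^ k * ‖iteratedFDeriv ℝ n (fun z => ∫ x, Φ x z ∂μ) z‖ ≤
      ∫ x, SchwartzMap.seminorm ℝ k n (Φ x) ∂μ := by
  rw [← norm_dD, h.iter n]
  calc ‖z‖ ^ k * ‖∫ x, dD n (Φ x) z ∂μ‖
      ≤ ‖z‖ ^ k * ∫ x, ‖dD n (Φ x) z‖ ∂μ :=
        mul_le_mul_of_nonneg_left (norm_integral_le_integral_norm _) (by positivity)
    _ = ∫ x, ‖z‖ ^ k * ‖dD n (Φ x) z‖ ∂μ := (integral_const_mul _ _).symm
    _ ≤ _ := integral_mono ((h.evD n z).norm.const_mul _) (h.seminorm k n)
        fun x => (Φ x).le_seminorm ℝ k n z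

/-- The integral of an integrable family of Schwartz functions. -/
def SInt.int (h : SInt Φ μ) : 𝓢(E, F) where
  toFun z := ∫ x, Φ x z ∂μ
  smooth' := contDiff_of_differentiable_iteratedFDeriv fun m _ z => by
    have := (h.hasFDerivAt m z).differentiableAt
    rw [← h.iter m] at this
    exact this
  decay' k n := ⟨_, h.bound k n⟩

lemma SInt.int_apply (h : SInt Φ μ) (z : E) : h.int z = ∫ x, Φ x z ∂μ := rfl

lemma SInt.eq_int (h : SInt Φ μ) {g : 𝓢(E, F)} (hg : ∀ z, g z = ∫ x, Φ x z ∂μ) : g = h.int :=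
  SchwartzMap.ext hg

lemma SInt.seminorm_le (h : SInt Φ μ) {g : 𝓢(E, F)} (hg : ∀ z, g z = ∫ x, Φ x z ∂μ) (k n : ℕ) :
    SchwartzMap.seminorm ℝ k n g ≤ ∫ x, SchwartzMap.seminorm ℝ k n (Φ x) ∂μ := by
  rw [h.eq_int hg]
  exact SchwartzMap.seminorm_le_bound ℝ k n _ (integral_nonneg fun x => apply_nonneg _ _)
    (h.bound k n)

lemma SInt.wd_eq (h : SInt Φ μ) {g : 𝓢(E, F)} (hg : ∀ z, g z = ∫ x, Φ x z ∂μ) (k n : ℕ) :
    ST.wd k n g = ∫ x, ST.wd k n (Φ x) ∂μ := by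
  ext1 z
  have e := (BoundedContinuousFunction.evalCLM ℝ z).integral_comp_comm (h.wd k n)
  have e' : (∫ x, ST.wd k n (Φ x) ∂μ) z = ∫ x, ST.wd k n (Φ x) z ∂μ := e.symm
  have hg' : (g : E → F) = fun z => ∫ x, Φ x z ∂μ := funext hg
  rw [e', wd_apply, hg', h.iter n]
  simp only [wd_apply]
  rw [integral_smul]

/-- **Continuous linear maps commute with integrals of Schwartz functions.** -/
theorem SInt.clm_real {G : Type*} [NormedAddCommGroup G] [NormedSpace ℝ G] [CompleteSpace G]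
    (h : SInt Φ μ) {g : 𝓢(E, F)} (hg : ∀ z, g z = ∫ x, Φ x z ∂μ) (Λ : 𝓢(E, F) →L[ℝ] G) :
    Integrable (fun x => Λ (Φ x)) μ ∧ Λ g = ∫ x, Λ (Φ x) ∂μ := by
  obtain ⟨s, C, -, hC⟩ := Seminorm.bound_of_continuous (schwartz_withSeminorms ℝ E F)
    ((normSeminorm ℝ G).comp (Λ : 𝓢(E, F) →ₗ[ℝ] G)) Λ.continuous.norm
  set ι : 𝓢(E, F) →L[ℝ] ((m : s) → E →ᵇ ML E F m.1.2) :=
    ContinuousLinearMap.pi fun m => ST.wd m.1.1 m.1.2 with hι
  have hi : Integrable (fun x => ι (Φ x)) μ := Integrable.of_eval fun m => h.wd m.1.1 m.1.2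
  refine int_abstract ι Λ (C := C) (fun f => ?_) h.meas hi ?_
  · have h1 : ‖Λ f‖ ≤ C * (s.sup (schwartzSeminormFamily ℝ E F)) f := Seminorm.le_def.1 hC f
    refine h1.trans (mul_le_mul_of_nonneg_left ?_ C.2)
    refine Seminorm.finset_sup_apply_le (norm_nonneg _) fun m hm => ?_
    have := norm_le_pi_norm (ι f) ⟨m, hm⟩
    rwa [hι, ContinuousLinearMap.pi_apply, norm_wd] at this
  · ext1 m
    have e := (ContinuousLinearMap.proj (R := ℝ)
      (φ := fun m : s => E →ᵇ ML E F m.1.2) m).integral_comp_comm hi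
    have e' : (∫ x, ι (Φ x) ∂μ) m = ∫ x, ST.wd m.1.1 m.1.2 (Φ x) ∂μ := e.symm
    rw [e']
    exact h.wd_eq hg _ _

/-- The complex linear version. -/
theorem SInt.clm {G : Type*} [NormedAddCommGroup G] [NormedSpace ℂ G] [CompleteSpace G]
    {Φ : X → 𝓢(E, ℂ)} (h : SInt Φ μ) {g : 𝓢(E, ℂ)} (hg : ∀ z, g z = ∫ x, Φ x z ∂μ)
    (Λ : 𝓢(E, ℂ) →L[ℂ] G) :
    Integrable (fun x => Λ (Φ x)) μ ∧ Λ g = ∫ x, Λ (Φ x) ∂μ :=
  h.clm_real hg (Λ.restrictScalars ℝ)

/-- Continuous linear maps of Schwartz spaces map integrable families to integrable families. -/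
theorem SInt.map {E' F' : Type*} [NormedAddCommGroup E'] [NormedSpace ℝ E'] [NormedAddCommGroup F']
    [NormedSpace ℝ F'] [CompleteSpace F'] (h : SInt Φ μ) (L : 𝓢(E, F) →L[ℝ] 𝓢(E', F')) :
    SInt (fun x => L (Φ x)) μ ∧
      ∀ g : 𝓢(E, F), (∀ z, g z = ∫ x, Φ x z ∂μ) → ∀ z, L g z = ∫ x, L (Φ x) z ∂μ := by
  refine ⟨⟨L.continuous.comp_aestronglyMeasurable h.meas, fun k n => ?_⟩, fun g hg z => ?_⟩
  · refine ⟨_, (h.clm_real h.int_apply (ST.wd k n ∘L L)).1.norm, Eventually.of_forall fun x => ?_⟩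
    exact (norm_wd k n _).ge
  · exact (h.clm_real hg (BoundedContinuousFunction.evalCLM ℝ z ∘L
      SchwartzMap.toBoundedContinuousFunctionCLM ℝ E' F' ∘L L)).2

/-- Integrability from continuity. -/
lemma SInt.of_continuous [TopologicalSpace X] [OpensMeasurableSpace X] [SecondCountableTopology X]
    (hc : Continuous Φ)
    (hb : ∀ k n, ∃ b : X → ℝ, Integrable b μ ∧ ∀ x, SchwartzMap.seminorm ℝ k n (Φ x) ≤ b x) :
    SInt Φ μ :=
  ⟨hc.aestronglyMeasurable, fun k n => (hb k n).imp fun _ hb => ⟨hb.1, Eventually.of_forall hb.2⟩⟩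

end Vale.Agent.P352X.ST
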